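import Vale.Agent.P095.Bridge.MultiplierBasic

/-!
P095 bridge, block I: equivariant one-sided intertwining. Products of the given unitary multipliers
conjugate the copy of `A` onto `B`, and their twisted quotients converge strictly to a cocycle.
-/

namespace Vale.Agent.P095.Bridge.Cocycle

open Filter Vale.Agent.P095.Bridge.Mult
open scoped Topology MultiplierAlgebra

variable {A B G : Type} [NonUnitalCStarAlgebra A] [NonUnitalCStarAlgebra B] [Group G]

/-- The data of the construction: unitaries and growing finite subsets of `A`. -/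
structure Run (ιA : A →⋆ₙₐ[ℂ] B) (β : G →* (B ≃⋆ₐ[ℂ] B)) (da : ℕ → A) (db : ℕ → B)
    (gs : ℕ → G) where
  v : ℕ → 𝓜(ℂ, B)
  K : ℕ → Finset A
  unitary : ∀ n, v n ∈ unitary 𝓜(ℂ, B)
  mono : ∀ n, K n ⊆ K (n + 1)
  mem_K : ∀ j, da j ∈ K (j + 1)
  move : ∀ n, ∀ a ∈ K n,
    ‖v (n + 1) * inM (ιA a) * star (v (n + 1)) - v n * inM (ιA a) * star (v n)‖ ≤ (1 / 2) ^ n
  reach : ∀ n j, j ≤ n → ∃ a ∈ K (n + 1),
    ‖inM (db j) - v (n + 1) * inM (ιA a) * star (v (n + 1))‖ ≤ (1 / 2) ^ n
  twist : ∀ n i j, i ≤ n → j ≤ n →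
    ‖(v (n + 1) * bar (β (gs i)) (star (v (n + 1))) - v n * bar (β (gs i)) (star (v n)))
        * inM (db j)‖ ≤ (1 / 2) ^ n ∧
    ‖inM (db j) * (v (n + 1) * bar (β (gs i)) (star (v (n + 1)))
        - v n * bar (β (gs i)) (star (v n)))‖ ≤ (1 / 2) ^ n

theorem inM_sub (a b : B) : inM (a - b) = inM a - inM b := map_sub _ _ _

theorem inM_mul_mul (a b : B) : inM (a * b) = inM a * inM b := map_mul _ _ _

theorem inM_star (a : B) : inM (star a) = star (inM a) := map_star _ _

theorem exists_run (ιA : A →⋆ₙₐ[ℂ] B) (β : G →* (B ≃⋆ₐ[ℂ] B)) (h : HasUnitaries ιA β)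
    (da : ℕ → A) (db : ℕ → B) (gs : ℕ → G) : Nonempty (Run ιA β da db gs) := by
  classical
  choose u hu hcomm hap htw using fun K F L H (n : ℕ) =>
    h K F L H ((1 / 2 : ℝ) ^ n) (by positivity)
  choose c hc using hap
  let c' : Finset A → Finset B → Finset G → Finset B → ℕ → B → A := fun K F L H n b =>
    if hb : b ∈ F then c K F L H n b hb else 0
  have hc' : ∀ K F L H n, ∀ b ∈ F,
      ‖(star (u K F L H n)).fst ((u K F L H n).snd b) - ιA (c' K F L H n b)‖ ≤ (1 / 2) ^ n :=
    fun K F L H n b hb => by simpa only [c', dif_pos hb] using hc K F L H n b hb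
  let KK : ℕ → Finset A → Finset A := fun n K => K ∪ (Finset.range (n + 1)).image da
  let FF : ℕ → 𝓜(ℂ, B) → Finset B := fun n v =>
    (Finset.range (n + 1)).image fun j => (star v).fst (v.snd (db j))
  let LL : ℕ → Finset G := fun n => (Finset.range (n + 1)).image gs
  let HH : ℕ → 𝓜(ℂ, B) → Finset B := fun n v =>
    ((Finset.range (n + 1) ×ˢ Finset.range (n + 1)).image fun ij =>
      (bar (β (gs ij.1)) (star v)).fst (db ij.2)) ∪
    (Finset.range (n + 1)).image fun j => (star v).fst (star (db j))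
  let U : ℕ → 𝓜(ℂ, B) × Finset A → 𝓜(ℂ, B) := fun n s =>
    u (KK n s.2) (FF n s.1) (LL n) (HH n s.1) n
  let st : ℕ → 𝓜(ℂ, B) × Finset A := fun n => Nat.rec ((1 : 𝓜(ℂ, B)), (∅ : Finset A))
    (fun n s => (s.1 * U n s,
      KK n s.2 ∪ (FF n s.1).image (c' (KK n s.2) (FF n s.1) (LL n) (HH n s.1) n))) n
  let v : ℕ → 𝓜(ℂ, B) := fun n => (st n).1
  let K : ℕ → Finset A := fun n => (st n).2
  let w : ℕ → 𝓜(ℂ, B) := fun n => U n (v n, K n)
  have hv : ∀ n, v (n + 1) = v n * w n := fun n => rfl
  have hK : ∀ n, K (n + 1) = KK n (K n) ∪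
      (FF n (v n)).image (c' (KK n (K n)) (FF n (v n)) (LL n) (HH n (v n)) n) := fun n => rfl
  have hw : ∀ n, w n ∈ unitary 𝓜(ℂ, B) := fun n => hu _ _ _ _ _
  have hvu : ∀ n, v n ∈ unitary 𝓜(ℂ, B) := by
    intro n
    induction n with
    | zero => exact one_mem _
    | succ n ih => rw [hv]; exact mul_mem ih (hw n)
  have conj : ∀ {V : 𝓜(ℂ, B)}, V ∈ unitary 𝓜(ℂ, B) → ∀ z, ‖V * z * star V‖ = ‖z‖ := by
    intro V hV z
    rw [CStarRing.norm_mul_mem_unitary _ (Unitary.star_mem hV), CStarRing.norm_mem_unitary_mul _ hV]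
  refine ⟨⟨v, K, hvu, fun n => ?_, fun j => ?_, fun n a ha => ?_, fun n j hj => ?_,
    fun n i j hi hj => ?_⟩⟩
  · rw [hK]
    exact Finset.subset_union_left.trans Finset.subset_union_left
  · rw [hK]
    exact Finset.mem_union_left _ (Finset.mem_union_right _
      (Finset.mem_image_of_mem _ (Finset.self_mem_range_succ j)))
  · have e : v (n + 1) * inM (ιA a) * star (v (n + 1)) - v n * inM (ιA a) * star (v n)
        = v n * (w n * inM (ιA a) * star (w n) - inM (ιA a)) * star (v n) := by
      simp only [hv, star_mul, mul_sub, sub_mul, mul_assoc]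
    have e2 : w n * inM (ιA a) * star (w n) - inM (ιA a)
        = (w n * inM (ιA a) - inM (ιA a) * w n) * star (w n) := by
      rw [sub_mul, mul_assoc (inM (ιA a)), Unitary.mul_star_self_of_mem (hw n), mul_one]
    rw [e, conj (hvu n), e2, CStarRing.norm_mul_mem_unitary _ (Unitary.star_mem (hw n))]
    exact hcomm _ _ _ _ n a (Finset.mem_union_left _ ha)
  · set b := (star (v n)).fst ((v n).snd (db j)) with hb
    have hbF : b ∈ FF n (v n) := Finset.mem_image_of_mem _ (Finset.mem_range.2 (by omega))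
    refine ⟨c' (KK n (K n)) (FF n (v n)) (LL n) (HH n (v n)) n b, ?_, ?_⟩
    · rw [hK]; exact Finset.mem_union_right _ (Finset.mem_image_of_mem _ hbF)
    set a := c' (KK n (K n)) (FF n (v n)) (LL n) (HH n (v n)) n b with ha
    have h1 : ‖(star (w n)).fst ((w n).snd b) - ιA a‖ ≤ (1 / 2) ^ n :=
      hc' (KK n (K n)) (FF n (v n)) (LL n) (HH n (v n)) n b hbF
    have e : star (v (n + 1)) * (inM (db j) - v (n + 1) * inM (ιA a) * star (v (n + 1)))
        * v (n + 1) = inM ((star (w n)).fst ((w n).snd b) - ιA a) := by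
      have e1 : inM ((star (w n)).fst ((w n).snd b)) = star (w n) * inM b * w n := by
        rw [mul_assoc, inM_mul, mul_inM]
      have e2 : inM b = star (v n) * inM (db j) * v n := by
        rw [mul_assoc, inM_mul, mul_inM]
      rw [inM_sub, e1, e2, mul_sub, sub_mul]
      congr 1
      · simp only [hv, star_mul, mul_assoc]
      · have h3 : star (v (n + 1)) * v (n + 1) = 1 := Unitary.star_mul_self_of_mem (hvu (n + 1))
        simp only [mul_assoc]
        rw [← mul_assoc (star (v (n + 1))) (v (n + 1)), h3, one_mul, mul_one]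
    rw [← CStarRing.norm_mul_mem_unitary _ (hvu (n + 1)),
      ← CStarRing.norm_mem_unitary_mul _ (Unitary.star_mem (hvu (n + 1))), ← mul_assoc, e,
      norm_inM]
    exact h1
  · set g := gs i with hg
    set T := w n * bar (β g) (star (w n)) with hT
    have hTu : T ∈ unitary 𝓜(ℂ, B) := mul_mem (hw n) (bar_unitary _ (Unitary.star_mem (hw n)))
    have hD : v (n + 1) * bar (β g) (star (v (n + 1))) - v n * bar (β g) (star (v n))
        = v n * (T - 1) * bar (β g) (star (v n)) := by
      simp only [hv, star_mul, bar_mul, hT, mul_sub, sub_mul, mul_one, mul_assoc]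
    have small : ∀ x ∈ HH n (v n), ‖(T - 1) * inM x‖ ≤ (1 / 2) ^ n := by
      intro x hx
      rw [sub_mul, one_mul, mul_inM, ← inM_sub, norm_inM, hT, mul_fst_apply, bar_fst]
      exact htw (KK n (K n)) (FF n (v n)) (LL n) (HH n (v n)) n g
        (Finset.mem_image_of_mem _ (Finset.mem_range.2 (by omega))) x hx
    rw [hD]
    constructor
    · have hx : (bar (β g) (star (v n))).fst (db j) ∈ HH n (v n) :=
        Finset.mem_union_left _ (Finset.mem_image.2 ⟨(i, j), Finset.mem_product.2
          ⟨Finset.mem_range.2 (by omega), Finset.mem_range.2 (by omega)⟩, rfl⟩)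
      rw [mul_assoc, mul_inM, mul_assoc, CStarRing.norm_mem_unitary_mul _ (hvu n)]
      exact small _ hx
    · have hx : (star (v n)).fst (star (db j)) ∈ HH n (v n) :=
        Finset.mem_union_right _ (Finset.mem_image_of_mem _ (Finset.mem_range.2 (by omega)))
      rw [← mul_assoc, CStarRing.norm_mul_mem_unitary _ (bar_unitary _ (Unitary.star_mem (hvu n))),
        ← mul_assoc]
      clear_value T
      have e : star (inM (db j) * v n * (T - 1))
          = -(star T * ((T - 1) * (star (v n) * inM (star (db j))))) := by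
        rw [star_mul, star_mul, star_sub, star_one, inM_star, ← mul_assoc (star T), mul_sub,
          Unitary.star_mul_self_of_mem hTu, mul_one, ← neg_mul, neg_sub]
      rw [← norm_star, e, norm_neg, CStarRing.norm_mem_unitary_mul _ (Unitary.star_mem hTu),
        mul_inM]
      exact small _ hx

theorem cauchySeq_of_geometric {E : Type} [SeminormedAddCommGroup E] {x : ℕ → E} {N : ℕ}
    (h : ∀ n, N ≤ n → ‖x (n + 1) - x n‖ ≤ (1 / 2) ^ n) : CauchySeq x := by
  refine (cauchySeq_shift (u := x) N).1 ?_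
  refine cauchySeq_of_le_geometric (1 / 2 : ℝ) ((1 / 2 : ℝ) ^ N) (by norm_num) fun n => ?_
  rw [dist_eq_norm', add_right_comm]
  exact (h (n + N) (by omega)).trans_eq (by rw [pow_add]; ring)

theorem norm_sub_le_geometric {E : Type} [SeminormedAddCommGroup E] {x : ℕ → E} {N : ℕ}
    (h : ∀ n, N ≤ n → ‖x (n + 1) - x n‖ ≤ (1 / 2) ^ n) {X : E}
    (hX : Tendsto x atTop (𝓝 X)) : ‖x N - X‖ ≤ 2 * (1 / 2) ^ N := by
  have h1 := dist_le_of_le_geometric_of_tendsto₀ (f := fun n => x (n + N)) (1 / 2 : ℝ)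
    ((1 / 2 : ℝ) ^ N) (by norm_num) (fun n => by
      rw [dist_eq_norm', add_right_comm]
      exact (h (n + N) (by omega)).trans_eq (by rw [pow_add]; ring))
    ((tendsto_add_atTop_iff_nat N).2 hX)
  rw [dist_eq_norm, zero_add] at h1
  exact h1.trans_eq (by ring)

/-- Block I. -/
theorem cocyclePin : CocyclePin := by
  intro A B _ _ _ _ G _ _ α β ιA hι hequiv h
  obtain ⟨gs, hgs⟩ := exists_surjective_nat G
  have hda := TopologicalSpace.denseRange_denseSeq A
  have hdb := TopologicalSpace.denseRange_denseSeq B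
  set da := TopologicalSpace.denseSeq A
  set db := TopologicalSpace.denseSeq B
  obtain ⟨R⟩ := exists_run ιA β h da db gs
  have hKle : ∀ m n, m ≤ n → R.K m ⊆ R.K n := fun m n hmn => by
    induction hmn with
    | refl => exact Finset.Subset.refl _
    | step _ ih => exact ih.trans (R.mono _)
  have hu1 : ∀ n, star (R.v n) * R.v n = 1 := fun n => Unitary.star_mul_self_of_mem (R.unitary n)
  have hu2 : ∀ n, R.v n * star (R.v n) = 1 := fun n => Unitary.mul_star_self_of_mem (R.unitary n)
  -- the isomorphism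
  let θ : ℕ → A → B := fun n a => (R.v n).fst ((star (R.v n)).snd (ιA a))
  have hθ : ∀ n a, inM (θ n a) = R.v n * inM (ιA a) * star (R.v n) := fun n a => by
    rw [mul_assoc, inM_mul, mul_inM]
  have hiso : ∀ n a, ‖θ n a‖ = ‖a‖ := fun n a => by
    rw [← norm_inM, hθ, CStarRing.norm_mul_mem_unitary _ (Unitary.star_mem (R.unitary n)),
      CStarRing.norm_mem_unitary_mul _ (R.unitary n), norm_inM,
      NonUnitalStarAlgHom.norm_map ιA hι]
  have hsub : ∀ n a b, θ n a - θ n b = θ n (a - b) := fun n a b => by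
    simp only [θ, map_sub]
  have hgeo : ∀ N a, a ∈ R.K N → ∀ n, N ≤ n → ‖θ (n + 1) a - θ n a‖ ≤ (1 / 2) ^ n := by
    intro N a ha n hn
    rw [← norm_inM, inM_sub, hθ, hθ]
    exact R.move n a (hKle N n hn ha)
  have hcau : ∀ a, CauchySeq fun n => θ n a := by
    intro a
    rw [Metric.cauchySeq_iff]
    intro ε hε
    obtain ⟨_, ⟨j, rfl⟩, hj⟩ := Metric.mem_closure_iff.1 (hda a) (ε / 3) (by positivity)
    obtain ⟨N, hN⟩ := Metric.cauchySeq_iff.1
      (cauchySeq_of_geometric (x := fun n => θ n (da j)) (hgeo (j + 1) _ (R.mem_K j))) (ε / 3) (by positivity)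
    refine ⟨N, fun m hm n hn => ?_⟩
    have h1 : ∀ k, dist (θ k a) (θ k (da j)) = dist a (da j) := fun k => by
      rw [dist_eq_norm, dist_eq_norm, hsub, hiso]
    linarith [dist_triangle4 (θ m a) (θ m (da j)) (θ n (da j)) (θ n a), h1 m, h1 n,
      dist_comm (θ n a) (θ n (da j)), hN m hm n hn]
  choose Θ hΘ using fun a => cauchySeq_tendsto_of_complete (hcau a)
  let φ : A →⋆ₙₐ[ℂ] B :=
    { toFun := Θ
      map_smul' := fun c a => tendsto_nhds_unique (hΘ (c • a))
        (((hΘ a).const_smul c).congr fun n => by simp [θ, map_smul])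
      map_zero' := tendsto_nhds_unique (hΘ 0) (tendsto_const_nhds.congr fun n => by simp [θ])
      map_add' := fun a b => tendsto_nhds_unique (hΘ (a + b))
        (((hΘ a).add (hΘ b)).congr fun n => by simp [θ, map_add])
      map_mul' := fun a b => tendsto_nhds_unique (hΘ (a * b))
        (((hΘ a).mul (hΘ b)).congr fun n => inM_injective (by
          rw [inM_mul_mul, hθ, hθ, hθ, map_mul, inM_mul_mul]
          simp only [mul_assoc]
          rw [← mul_assoc (star (R.v n)) (R.v n), hu1, one_mul]))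
      map_star' := fun a => tendsto_nhds_unique (hΘ (star a))
        ((hΘ a).star.congr fun n => inM_injective (by
          rw [inM_star, hθ, hθ, map_star, inM_star, star_mul, star_mul, star_star, mul_assoc])) }
  have hφ : ∀ a, Tendsto (fun n => θ n a) atTop (𝓝 (φ a)) := hΘ
  have hφiso : Isometry φ := AddMonoidHomClass.isometry_of_norm φ fun a =>
    tendsto_nhds_unique (hφ a).norm (tendsto_const_nhds.congr fun n => (hiso n a).symm)
  have hsur : Function.Surjective φ := by
    intro b
    have hcl : IsClosed (Set.range φ) := hφiso.isClosedEmbedding.isClosed_range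
    have hd : ∀ j, db j ∈ closure (Set.range φ) := by
      intro j
      refine Metric.mem_closure_iff.2 fun ε hε => ?_
      obtain ⟨M, hM⟩ := exists_pow_lt_of_lt_one (show (0 : ℝ) < ε / 4 by positivity)
        (show (1 / 2 : ℝ) < 1 by norm_num)
      obtain ⟨a, ha, hb⟩ := R.reach (max M j) j (le_max_right _ _)
      refine ⟨φ a, ⟨a, rfl⟩, ?_⟩
      rw [← hθ, ← inM_sub, norm_inM] at hb
      have h2 := norm_sub_le_geometric (x := fun n => θ n a) (hgeo _ a ha) (hφ a)
      have h3 : (1 / 2 : ℝ) ^ max M j < ε / 4 :=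
        lt_of_le_of_lt (pow_le_pow_of_le_one (by norm_num) (by norm_num) (le_max_left _ _)) hM
      rw [pow_succ] at h2
      rw [dist_eq_norm]
      linarith [norm_sub_le_norm_sub_add_norm_sub (db j) (θ (max M j + 1) a) (φ a)]
    have hb : b ∈ closure (Set.range φ) :=
      closure_minimal (by rintro _ ⟨j, rfl⟩; exact hd j) isClosed_closure (hdb b)
    rwa [hcl.closure_eq] at hb
  -- the cocycle
  let W : ℕ → G → 𝓜(ℂ, B) := fun n g => R.v n * bar (β g) (star (R.v n))
  have hWu : ∀ n g, W n g ∈ unitary 𝓜(ℂ, B) := fun n g =>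
    mul_mem (R.unitary n) (bar_unitary _ (Unitary.star_mem (R.unitary n)))
  have hWlim : ∀ g, ∃ X : 𝓜(ℂ, B), (∀ b, Tendsto (fun n => (W n g).fst b) atTop (𝓝 (X.fst b))) ∧
      ∀ b, Tendsto (fun n => (W n g).snd b) atTop (𝓝 (X.snd b)) := by
    intro g
    obtain ⟨i, rfl⟩ := hgs g
    refine exists_limit (fun n => norm_le_one (hWu n _)) hdb ?_ ?_
    · rintro _ ⟨j, rfl⟩
      refine cauchySeq_of_geometric (N := max i j) fun n hn => ?_
      rw [← norm_inM, inM_sub, ← mul_inM, ← mul_inM, ← sub_mul]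
      exact (R.twist n i j (le_of_max_le_left hn) (le_of_max_le_right hn)).1
    · rintro _ ⟨j, rfl⟩
      refine cauchySeq_of_geometric (N := max i j) fun n hn => ?_
      rw [← norm_inM, inM_sub, ← inM_mul, ← inM_mul, ← mul_sub]
      exact (R.twist n i j (le_of_max_le_left hn) (le_of_max_le_right hn)).2
  choose X hXf hXs using hWlim
  have hW1 : ∀ g n, ‖W n g‖ ≤ 1 := fun g n => norm_le_one (hWu n g)
  have hW1' : ∀ g n, ‖star (W n g)‖ ≤ 1 := fun g n => (norm_star _).trans_le (hW1 g n)
  have hXsf : ∀ g b, Tendsto (fun n => (star (W n g)).fst b) atTop (𝓝 ((star (X g)).fst b)) :=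
    fun g b => by simpa only [DoubleCentralizer.star_fst] using (hXs g (star b)).star
  have hXss : ∀ g b, Tendsto (fun n => (star (W n g)).snd b) atTop (𝓝 ((star (X g)).snd b)) :=
    fun g b => by simpa only [DoubleCentralizer.star_snd] using (hXf g (star b)).star
  refine ⟨StarAlgEquiv.ofBijective φ ⟨hφiso.injective, hsur⟩, X, fun g => ?_, fun g k b => ?_,
    fun g a => ?_⟩
  · rw [Unitary.mem_iff]
    constructor
    · refine ext_fst fun b => ?_
      rw [mul_fst_apply]
      refine tendsto_nhds_unique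
        (Mult.tendsto_fst (hW1' g) (hXsf g) (hXf g b)) (tendsto_const_nhds.congr fun n => ?_)
      rw [← mul_fst_apply, Unitary.star_mul_self_of_mem (hWu n g)]
    · refine ext_fst fun b => ?_
      rw [mul_fst_apply]
      refine tendsto_nhds_unique
        (Mult.tendsto_fst (hW1 g) (hXf g) (hXsf g b)) (tendsto_const_nhds.congr fun n => ?_)
      rw [← mul_fst_apply, Unitary.mul_star_self_of_mem (hWu n g)]
  · refine tendsto_nhds_unique (hXf (g * k) b) ?_
    refine (Mult.tendsto_fst (hW1 g) (hXf g)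
      (((autL (β g)).continuous.tendsto _).comp (hXf k ((β g).symm b)))).congr fun n => ?_
    have e : W n g * bar (β g) (W n k) = W n (g * k) := by
      have e1 : bar (β g) (bar (β k) (star (R.v n))) = bar (β (g * k)) (star (R.v n)) :=
        ext_fst fun c => by rw [bar_fst, bar_fst, bar_fst, map_mul]; rfl
      show R.v n * bar (β g) (star (R.v n)) * bar (β g) (R.v n * bar (β k) (star (R.v n))) = _
      rw [bar_mul, e1, mul_assoc (R.v n), ← mul_assoc (bar (β g) (star (R.v n))), ← bar_mul, hu1,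
        bar_one, one_mul]
    show (W n g).fst (β g ((W n k).fst ((β g).symm b))) = _
    exact congrArg (fun x : 𝓜(ℂ, B) => x.fst b) e
  · show inM (φ (α g a)) = X g * inM (β g (φ a)) * star (X g)
    rw [mul_assoc, inM_mul, mul_inM]
    refine congrArg inM (tendsto_nhds_unique (hφ (α g a)) ?_)
    refine (Mult.tendsto_fst (hW1 g) (hXf g) (Mult.tendsto_snd (hW1' g) (hXss g)
      (((autL (β g)).continuous.tendsto _).comp (hφ a)))).congr fun n => inM_injective ?_
    show inM ((W n g).fst ((star (W n g)).snd (β g (θ n a)))) = inM (θ n (α g a))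
    rw [hθ, ← hequiv, ← mul_inM, ← inM_mul, ← bar_inM, ← bar_inM, hθ, bar_mul, bar_mul]
    show R.v n * bar (β g) (star (R.v n)) * (bar (β g) (R.v n) * bar (β g) (inM (ιA a))
      * bar (β g) (star (R.v n)) * star (R.v n * bar (β g) (star (R.v n)))) = _
    rw [star_mul, ← bar_star, star_star]
    have c1 : bar (β g) (star (R.v n)) * bar (β g) (R.v n) = 1 := by rw [← bar_mul, hu1, bar_one]
    simp only [← mul_assoc]
    rw [mul_assoc (R.v n) (bar (β g) (star (R.v n))) (bar (β g) (R.v n)), c1, mul_one,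
      mul_assoc (R.v n * bar (β g) (inM (ιA a))) (bar (β g) (star (R.v n))) (bar (β g) (R.v n)),
      c1, mul_one]

end Vale.Agent.P095.Bridge.Cocycle
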