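import Vale.Agent.P095.Bridge.Pins
import Vale.Agent.P095.W.Converse
import Vale.Agent.P095.W.CompareBasic
import Vale.Agent.P101.Bridge.Assembly

/-!
P095 bridge, N: an algebra absorbing the limit has no characters on its central sequences.
-/

namespace Vale.Agent.P095.Bridge

open Filter Vale.Agent.P101 Vale.Agent.P101.Bridge Vale.Agent.P101.DropN
open scoped Topology BoundedContinuousFunction Matrix Matrix.Norms.L2Operator Kronecker
  unitInterval MultiplierAlgebra

/-! ### Almost central homomorphisms into the limit -/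

theorem exists_preimage {S : Chain} {D : Type} [CStarAlgebra D]
    {ι : ∀ k, ZPair (S.p k) (S.q k) →⋆ₐ[ℂ] D} (hlim : IsLimit S ι) {k n : ℕ} (h : k ≤ n)
    (x : ZPair (S.p k) (S.q k)) : ∃ z, ι n z = ι k x := by
  induction n, h using Nat.le_induction with
  | base => exact ⟨x, rfl⟩
  | succ n _ ih =>
    obtain ⟨z, hz⟩ := ih
    exact ⟨S.φ n z, by rw [hlim.compat n z, hz]⟩

theorem exists_central_homs {S : Chain} (hS : HasCentralCopies S) {D : Type} [CStarAlgebra D]
    {ι : ∀ k, ZPair (S.p k) (S.q k) →⋆ₐ[ℂ] D} (hlim : IsLimit S ι) :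
    ∃ μ : ℕ → (ZPair 2 3 →⋆ₐ[ℂ] D), ∀ (d : D) (y : ZPair 2 3),
      Tendsto (fun n => μ n y * d - d * μ n y) atTop (𝓝 0) := by
  classical
  let g : ∀ n, Fin (n + 1) × Fin (n + 1) → ZPair (S.p n) (S.q n) := fun n il =>
    (exists_preimage hlim (k := il.1) (Nat.le_of_lt_succ il.1.2)
      (TopologicalSpace.denseSeq (ZPair (S.p il.1) (S.q il.1)) il.2)).choose
  have hg : ∀ n il, ι n (g n il) =
      ι il.1 (TopologicalSpace.denseSeq (ZPair (S.p il.1) (S.q il.1)) il.2) := fun n il =>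
    (exists_preimage hlim (k := il.1) (Nat.le_of_lt_succ il.1.2)
      (TopologicalSpace.denseSeq (ZPair (S.p il.1) (S.q il.1)) il.2)).choose_spec
  choose j κ hκ using fun n : ℕ =>
    hS n (Finset.univ.image (g n)) (1 / ((n : ℝ) + 1)) (by positivity)
  refine ⟨fun n => (ι (n + j n)).comp (κ n), fun d y => ?_⟩
  rw [Metric.tendsto_nhds]
  intro ε hε
  set c := ‖(y : C(I, Fib 2 3))‖ + 1 with hc
  have hc0 : 0 < c := by positivity
  obtain ⟨d', hd', hdd⟩ := Metric.mem_closure_iff.1 (hlim.dense d) (ε / (8 * c)) (by positivity)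
  obtain ⟨i, x, rfl⟩ := Set.mem_iUnion.1 hd'
  obtain ⟨l, hl⟩ := (TopologicalSpace.denseRange_denseSeq (ZPair (S.p i) (S.q i))).exists_dist_lt x
    (show 0 < ε / (8 * c) by positivity)
  set e := ι i (TopologicalSpace.denseSeq (ZPair (S.p i) (S.q i)) l)
  have hde : ‖d - e‖ ≤ ε / (4 * c) := by
    have h1 : dist (ι i x) e ≤ dist x (TopologicalSpace.denseSeq _ l) := by
      rw [dist_eq_norm, dist_eq_norm, ← map_sub]
      exact NonUnitalStarAlgHom.norm_apply_le (ι i) _
    have h2 := dist_triangle d (ι i x) e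
    have h3 : ε / (8 * c) + ε / (8 * c) = ε / (4 * c) := by field_simp; ring
    rw [← dist_eq_norm]
    linarith
  filter_upwards [eventually_ge_atTop i, eventually_ge_atTop l,
    (tendsto_one_div_add_atTop_nhds_zero_nat (𝕜 := ℝ)).eventually
      (eventually_lt_nhds (show 0 < ε / (4 * c) by positivity))] with n hi hl' hn
  set T := ι (n + j n) (κ n y)
  have hy : ‖T‖ ≤ c := ((NonUnitalStarAlgHom.norm_apply_le (ι (n + j n)) _).trans
    (NonUnitalStarAlgHom.norm_apply_le (κ n) y)).trans (by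
      rw [hc]
      exact le_add_of_le_of_nonneg (le_refl _) zero_le_one)
  set z := g n (⟨i, by omega⟩, ⟨l, by omega⟩)
  have hz : ι (n + j n) (S.comp n (j n) z) = e := (limit_comp hlim n (j n) z).trans (hg n _)
  have he : ‖T * e - e * T‖ ≤ 1 / ((n : ℝ) + 1) * c := by
    have h := hκ n z (Finset.mem_image_of_mem _ (Finset.mem_univ _)) y
    rw [← hz, ← map_mul, ← map_mul, ← map_sub]
    exact (NonUnitalStarAlgHom.norm_apply_le (ι (n + j n)) _).trans h
  show dist (T * d - d * T) 0 < ε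
  rw [dist_zero_right,
    show T * d - d * T = (T * (d - e) - (d - e) * T) + (T * e - e * T) by noncomm_ring]
  refine lt_of_le_of_lt ((norm_add_le _ _).trans (add_le_add ((norm_sub_le _ _).trans
    (add_le_add (norm_mul_le _ _) (norm_mul_le _ _))) he)) ?_
  have b1 := mul_le_mul hy hde (norm_nonneg _) hc0.le
  have b2 := mul_lt_mul_of_pos_right hn hc0
  have b3 : c * (ε / (4 * c)) = ε / 4 := by field_simp
  linarith

/-! ### Bounded sequences killing a dense span -/

theorem tendsto_of_dense {E F : Type} [NormedAddCommGroup E] [NormedSpace ℂ E]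
    [NormedAddCommGroup F] [NormedSpace ℂ F] (T : ℕ → E →ₗ[ℂ] F) (C : ℝ) (hC : 0 ≤ C)
    (hb : ∀ n x, ‖T n x‖ ≤ C * ‖x‖) (s : Set E) (hs : Dense (Submodule.span ℂ s : Set E))
    (h : ∀ x ∈ s, Tendsto (fun n => T n x) atTop (𝓝 0)) (x : E) :
    Tendsto (fun n => T n x) atTop (𝓝 0) := by
  have hspan : ∀ y ∈ Submodule.span ℂ s, Tendsto (fun n => T n y) atTop (𝓝 0) := by
    intro y hy
    induction hy using Submodule.span_induction with
    | mem y hy => exact h y hy
    | zero => simp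
    | add y z _ _ hy hz => simpa using hy.add hz
    | smul r y _ hy => simpa using hy.const_smul r
  rw [Metric.tendsto_nhds]
  intro ε hε
  obtain ⟨y, hy, hxy⟩ := Metric.mem_closure_iff.1 (hs x) (ε / (2 * (C + 1))) (by positivity)
  filter_upwards [Metric.tendsto_nhds.1 (hspan y hy) (ε / 2) (half_pos hε)] with n hn
  rw [dist_zero_right] at hn ⊢
  rw [dist_eq_norm] at hxy
  have h1 : T n x = T n (x - y) + T n y := by rw [map_sub, sub_add_cancel]
  have h2 := mul_le_mul_of_nonneg_left hxy.le hC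
  have h3 : C * (ε / (2 * (C + 1))) ≤ ε / 2 := by
    rw [mul_div_assoc', div_le_div_iff₀ (by positivity) two_pos]
    nlinarith
  rw [h1]
  linarith [norm_add_le (T n (x - y)) (T n y), hb n (x - y)]

/-! ### Elementary tensors inside the multipliers -/

section Multipliers

variable {A D B : Type} [NonUnitalCStarAlgebra A] [CStarAlgebra D] [NonUnitalCStarAlgebra B]

theorem fst_mul_apply (T : 𝓜(ℂ, B)) (b c : B) : T.fst (b * c) = T.fst b * c := by
  have h : ∀ x, x * T.fst (b * c) = x * (T.fst b * c) := fun x => by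
    rw [← mul_assoc x (T.fst b) c, ← T.central x b, ← T.central x (b * c), mul_assoc]
  refine sub_eq_zero.1 ?_
  rw [← norm_eq_zero, ← mul_self_eq_zero, ← CStarRing.norm_star_mul_self, norm_eq_zero, mul_sub,
    h, sub_self]

theorem mul_coe (T : 𝓜(ℂ, B)) (b : B) :
    T * DoubleCentralizer.coeHom b = DoubleCentralizer.coeHom (𝕜 := ℂ) (T.fst b) := by
  refine DoubleCentralizer.ext ℂ B _ _ (Prod.ext ?_ ?_)
  · exact ContinuousLinearMap.ext fun c => fst_mul_apply T b c
  · exact ContinuousLinearMap.ext fun c => T.central c b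

theorem norm_coe_mult (b : B) : ‖DoubleCentralizer.coeHom (𝕜 := ℂ) b‖ = ‖b‖ := by
  refine NonUnitalStarAlgHom.norm_map (DoubleCentralizer.coeHom (𝕜 := ℂ) (A := B)) ?_ b
  intro x y h
  refine sub_eq_zero.1 ?_
  rw [← norm_eq_zero, ← mul_self_eq_zero, ← CStarRing.norm_self_mul_star, norm_eq_zero, sub_mul,
    sub_eq_zero]
  exact congrArg (fun T : 𝓜(ℂ, B) => T.fst (star (x - y))) h

variable (ιA : A →⋆ₙₐ[ℂ] B) (ιD : D →⋆ₐ[ℂ] 𝓜(ℂ, B))

theorem coe_elem (a : A) (d : D) :
    DoubleCentralizer.coeHom (𝕜 := ℂ) (elem ιA ιD a d) =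
      ιD d * DoubleCentralizer.coeHom (ιA a) := (mul_coe _ _).symm

variable {ιA ιD}

theorem coe_elem' (h : IsTensor ιA ιD) (a : A) (d : D) :
    DoubleCentralizer.coeHom (𝕜 := ℂ) (elem ιA ιD a d) =
      DoubleCentralizer.coeHom (ιA a) * ιD d := by
  rw [coe_elem, (h.comm a d).eq]

theorem elem_mul (h : IsTensor ιA ιD) (a a' : A) (d d' : D) :
    elem ιA ιD a d * elem ιA ιD a' d' = elem ιA ιD (a * a') (d * d') := by
  have hinj : Function.Injective (DoubleCentralizer.coeHom (𝕜 := ℂ) (A := B)) :=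
    (AddMonoidHomClass.isometry_of_norm _ norm_coe_mult).injective
  apply hinj
  rw [map_mul, coe_elem' h, coe_elem' h, coe_elem' h, map_mul, map_mul, map_mul]
  exact ((h.comm a' d).symm.mul_mul_mul_comm _ _)

theorem star_elem (h : IsTensor ιA ιD) (a : A) (d : D) :
    star (elem ιA ιD a d) = elem ιA ιD (star a) (star d) := by
  have hinj : Function.Injective (DoubleCentralizer.coeHom (𝕜 := ℂ) (A := B)) :=
    (AddMonoidHomClass.isometry_of_norm _ norm_coe_mult).injective
  apply hinj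
  rw [map_star, coe_elem' h, coe_elem, star_mul, ← map_star, ← map_star, ← map_star]

theorem norm_elem_le (a : A) (d : D) : ‖elem ιA ιD a d‖ ≤ ‖a‖ * ‖d‖ := by
  rw [← norm_coe_mult, coe_elem, mul_comm ‖a‖]
  refine (norm_mul_le _ _).trans (mul_le_mul (NonUnitalStarAlgHom.norm_apply_le ιD d) ?_
    (norm_nonneg _) (norm_nonneg _))
  rw [norm_coe_mult]
  exact NonUnitalStarAlgHom.norm_apply_le ιA a

theorem elem_add_left (a a' : A) (d : D) :
    elem ιA ιD (a + a') d = elem ιA ιD a d + elem ιA ιD a' d := by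
  simp only [elem, map_add]

theorem elem_sub_left (a a' : A) (d : D) :
    elem ιA ιD (a - a') d = elem ιA ιD a d - elem ιA ιD a' d := by
  simp only [elem, map_sub]

theorem elem_add_right (a : A) (d d' : D) :
    elem ιA ιD a (d + d') = elem ιA ιD a d + elem ιA ιD a d' := by
  simp only [elem, map_add, DoubleCentralizer.add_fst, add_apply]

theorem elem_sub_right (a : A) (d d' : D) :
    elem ιA ιD a (d - d') = elem ιA ιD a d - elem ιA ιD a d' := by
  simp only [elem, map_sub, DoubleCentralizer.sub_fst]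
  rfl

theorem elem_smul_right (a : A) (r : ℂ) (d : D) :
    elem ιA ιD a (r • d) = r • elem ιA ιD a d := by
  simp only [elem, map_smul, DoubleCentralizer.smul_fst]
  rfl

end Multipliers

/-! ### The maps into the central sequences -/

section Seq

variable {A D B : Type} [NonUnitalCStarAlgebra A] [CStarAlgebra D] [NonUnitalCStarAlgebra B]
  {ιA : A →⋆ₙₐ[ℂ] B} {ιD : D →⋆ₐ[ℂ] 𝓜(ℂ, B)}

theorem tendsto_elem {e : ℕ → A} {d : ℕ → D} {C : ℝ} (he : Tendsto e atTop (𝓝 0))
    (hd : ∀ n, ‖d n‖ ≤ C) : Tendsto (fun n => elem ιA ιD (e n) (d n)) atTop (𝓝 0) := by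
  refine squeeze_zero_norm (fun n => (norm_elem_le (e n) (d n)).trans
    (mul_le_mul_of_nonneg_left (hd n) (norm_nonneg _))) ?_
  simpa using (tendsto_zero_iff_norm_tendsto_zero.1 he).mul_const C

theorem tendsto_elem' {a : A} {d : ℕ → D} (hd : Tendsto d atTop (𝓝 0)) :
    Tendsto (fun n => elem ιA ιD a (d n)) atTop (𝓝 0) := by
  refine squeeze_zero_norm (fun n => norm_elem_le a (d n)) ?_
  simpa using (tendsto_zero_iff_norm_tendsto_zero.1 hd).const_mul ‖a‖

/-- The defect of the product is small against elementary tensors. -/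
theorem tendsto_left (h : IsTensor ιA ιD) {e : ℕ → A}
    (hu : ∀ a, Tendsto (fun n => e n * a - a) atTop (𝓝 0)) (he : ∀ n, ‖e n‖ ≤ 1)
    {d d' : ℕ → D} {C C' : ℝ} (hC : 0 ≤ C) (hd : ∀ n, ‖d n‖ ≤ C) (hd' : ∀ n, ‖d' n‖ ≤ C')
    (b : A) (c : D) :
    Tendsto (fun n => (elem ιA ιD (e n) (d n * d' n) -
      elem ιA ιD (e n) (d n) * elem ιA ιD (e n) (d' n)) * elem ιA ιD b c) atTop (𝓝 0) := by
  have hbound : ∀ n, ‖d n * d' n * c‖ ≤ C * C' * ‖c‖ := fun n =>
    (norm_mul_le _ _).trans (mul_le_mul_of_nonneg_right ((norm_mul_le _ _).trans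
      (mul_le_mul (hd n) (hd' n) (norm_nonneg _) hC)) (norm_nonneg _))
  have hsq : Tendsto (fun n => e n * b - e n * (e n * b)) atTop (𝓝 0) := by
    refine squeeze_zero_norm (fun n => ?_) (tendsto_zero_iff_norm_tendsto_zero.1 (hu b))
    rw [← mul_sub]
    refine (norm_mul_le _ _).trans ?_
    rw [norm_sub_rev]
    exact mul_le_of_le_one_left (norm_nonneg _) (he n)
  refine (tendsto_elem (ιA := ιA) (ιD := ιD) hsq hbound).congr fun n => ?_
  rw [sub_mul, elem_mul h, elem_mul h, elem_mul h, ← elem_sub_left, mul_assoc (e n) (e n) b]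

theorem tendsto_comm (h : IsTensor ιA ιD) {e : ℕ → A}
    (hu : ∀ a, Tendsto (fun n => e n * a - a) atTop (𝓝 0))
    (hv : ∀ a, Tendsto (fun n => a * e n - a) atTop (𝓝 0))
    {d : ℕ → D} {C : ℝ} (hd : ∀ n, ‖d n‖ ≤ C)
    (hc : ∀ c, Tendsto (fun n => d n * c - c * d n) atTop (𝓝 0)) (b : A) (c : D) :
    Tendsto (fun n => elem ιA ιD (e n) (d n) * elem ιA ιD b c -
      elem ιA ιD b c * elem ιA ιD (e n) (d n)) atTop (𝓝 0) := by
  have h1 : ∀ n, ‖d n * c‖ ≤ C * ‖c‖ := fun n =>
    (norm_mul_le _ _).trans (mul_le_mul_of_nonneg_right (hd n) (norm_nonneg _))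
  have h2 : ∀ n, ‖c * d n‖ ≤ ‖c‖ * C := fun n =>
    (norm_mul_le _ _).trans (mul_le_mul_of_nonneg_left (hd n) (norm_nonneg _))
  have := ((tendsto_elem (ιA := ιA) (ιD := ιD) (hu b) h1).add
    (tendsto_elem' (ιA := ιA) (ιD := ιD) (a := b) (hc c))).sub
    (tendsto_elem (ιA := ιA) (ιD := ιD) (hv b) h2)
  simp only [add_zero, sub_zero] at this
  refine this.congr fun n => ?_
  rw [elem_mul h, elem_mul h, elem_sub_left, elem_sub_left, elem_sub_right]
  abel

end Seq

/-! ### The block -/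

theorem exists_units (A : Type) [NonUnitalCStarAlgebra A] [TopologicalSpace.SeparableSpace A] :
    ∃ e : ℕ → A, (∀ n, ‖e n‖ ≤ 1 ∧ star (e n) = e n) ∧
      (∀ a, Tendsto (fun n => e n * a - a) atTop (𝓝 0)) ∧
      ∀ a, Tendsto (fun n => a * e n - a) atTop (𝓝 0) := by
  classical
  choose e he1 he2 he3 using fun n : ℕ => W.exists_unit
    ((Finset.range (n + 1)).image (TopologicalSpace.denseSeq A))
    (show (0 : ℝ) < 1 / ((n : ℝ) + 1) by positivity)
  have key : ∀ a, Tendsto (fun n => e n * a - a) atTop (𝓝 0) := fun a => by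
    rw [Metric.tendsto_nhds]
    intro ε hε
    obtain ⟨l, hl⟩ := (TopologicalSpace.denseRange_denseSeq A).exists_dist_lt a
      (show 0 < ε / 4 by positivity)
    filter_upwards [eventually_ge_atTop l, (tendsto_one_div_add_atTop_nhds_zero_nat (𝕜 := ℝ)).eventually
      (eventually_lt_nhds (show 0 < ε / 4 by positivity))] with n hn hn'
    set b := TopologicalSpace.denseSeq A l
    have h := (he3 n b (Finset.mem_image.2 ⟨l, Finset.mem_range.2 (by omega), rfl⟩)).1
    rw [dist_zero_right]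
    rw [dist_eq_norm] at hl
    have e1 : e n * a - a = (e n * (a - b) - (a - b)) + (e n * b - b) := by
      rw [mul_sub]; abel
    have h2 : ‖e n * (a - b)‖ ≤ ‖a - b‖ :=
      (norm_mul_le _ _).trans (mul_le_of_le_one_left (norm_nonneg _) (he2 n))
    rw [e1]
    linarith [norm_add_le (e n * (a - b) - (a - b)) (e n * b - b),
      norm_sub_le (e n * (a - b)) (a - b)]
  refine ⟨e, fun n => ⟨he2 n, he1 n⟩, key, fun a => ?_⟩
  have := (key (star a)).star
  simp only [star_sub, star_mul, star_star, star_zero] at this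
  exact this.congr fun n => by rw [he1 n]

variable {A D B : Type} [NonUnitalCStarAlgebra A] [CStarAlgebra D] [NonUnitalCStarAlgebra B]
  {ιA : A →⋆ₙₐ[ℂ] B} {ιD : D →⋆ₐ[ℂ] 𝓜(ℂ, B)}

/-- The left annihilation of a bounded sequence of elements is seen on elementary tensors. -/
theorem tendsto_mul_all (h : IsTensor ιA ιD) {X : ℕ → B} {C : ℝ} (hC : 0 ≤ C)
    (hX : ∀ n, ‖X n‖ ≤ C)
    (hz : ∀ b c, Tendsto (fun n => X n * elem ιA ιD b c) atTop (𝓝 0)) (z : B) :
    Tendsto (fun n => X n * z) atTop (𝓝 0) :=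
  tendsto_of_dense (fun n => LinearMap.mulLeft ℂ (X n)) C hC
    (fun n x => (norm_mul_le _ _).trans (mul_le_mul_of_nonneg_right (hX n) (norm_nonneg _)))
    _ h.dense (by rintro _ ⟨⟨b, c⟩, rfl⟩; exact hz b c) z

theorem tendsto_comm_all (h : IsTensor ιA ιD) {X : ℕ → B} {C : ℝ} (hC : 0 ≤ C)
    (hX : ∀ n, ‖X n‖ ≤ C)
    (hz : ∀ b c, Tendsto (fun n => X n * elem ιA ιD b c - elem ιA ιD b c * X n) atTop (𝓝 0))
    (z : B) : Tendsto (fun n => X n * z - z * X n) atTop (𝓝 0) :=
  tendsto_of_dense (fun n => LinearMap.mulLeft ℂ (X n) - LinearMap.mulRight ℂ (X n)) (2 * C)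
    (by linarith)
    (fun n x => (norm_sub_le _ _).trans (by
      have h1 := mul_le_mul_of_nonneg_right (hX n) (norm_nonneg x)
      have h2 := norm_mul_le (X n) x
      have h3 := norm_mul_le x (X n)
      simp only [LinearMap.mulLeft_apply, LinearMap.mulRight_apply]
      rw [mul_comm ‖x‖] at h3
      linarith))
    _ h.dense (by rintro _ ⟨⟨b, c⟩, rfl⟩; exact hz b c) z

/-- N. -/
theorem stableNoCharPin : StableNoCharPin := by
  intro S hS D _ ι hlim A _ _ w hw B _ ιA ιD hT ⟨Φ⟩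
  obtain ⟨μ, hμ⟩ := exists_central_homs hS hlim
  obtain ⟨e, he, hu, hv⟩ := exists_units A
  have hwT : ∀ {u : ℕ → Unitization ℂ A}, Tendsto u atTop (𝓝 0) →
      Tendsto u (w : Filter ℕ) (𝓝 0) := fun h =>
    h.mono_left (hw.trans_eq Nat.cofinite_eq_atTop)
  let X : ZPair 2 3 → ℕ → B := fun y n => elem ιA ιD (e n) (μ n y)
  let Y : ZPair 2 3 → ℕ → A := fun y n => Φ.symm (X y n)
  have hXb : ∀ y n, ‖X y n‖ ≤ ‖y‖ := fun y n => (norm_elem_le _ _).trans
    ((mul_le_mul (he n).1 (NonUnitalStarAlgHom.norm_apply_le (μ n) y) (norm_nonneg _)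
      zero_le_one).trans_eq (one_mul _))
  have hYb : ∀ y n, ‖(Y y n : Unitization ℂ A)‖ ≤ ‖y‖ := fun y n => by
    rw [Unitization.norm_inr]
    exact (NonUnitalStarAlgHom.norm_apply_le Φ.symm (X y n)).trans (hXb y n)
  have pull : ∀ {u : ℕ → B}, Tendsto u atTop (𝓝 0) →
      Tendsto (fun n => (Φ.symm (u n) : Unitization ℂ A)) (w : Filter ℕ) (𝓝 0) := fun {u} h => by
    refine hwT (squeeze_zero_norm (fun n => ?_) (tendsto_zero_iff_norm_tendsto_zero.1 h))
    rw [Unitization.norm_inr]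
    exact NonUnitalStarAlgHom.norm_apply_le Φ.symm (u n)
  have hcen : ∀ y (a : A), Tendsto (fun n => (Y y n : Unitization ℂ A) * (a : Unitization ℂ A)
      - (a : Unitization ℂ A) * (Y y n : Unitization ℂ A)) (w : Filter ℕ) (𝓝 0) := fun y a => by
    refine (pull (tendsto_comm_all hT (norm_nonneg y) (hXb y) (fun b c => tendsto_comm hT hu hv
      (fun n => NonUnitalStarAlgHom.norm_apply_le (μ n) y) (fun d => hμ d y) b c)
      (Φ a))).congr fun n => ?_
    rw [map_sub, map_mul, map_mul, StarAlgEquiv.symm_apply_apply, Unitization.inr_sub,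
      Unitization.inr_mul, Unitization.inr_mul]
  let F : ZPair 2 3 → (ℕ →ᵇ Unitization ℂ A) := fun y =>
    BoundedContinuousFunction.ofNormedAddCommGroupDiscrete
      (fun n => (Y y n : Unitization ℂ A)) ‖y‖ (hYb y)
  have hmem : ∀ y, F y ∈ centralSeq (w : Filter ℕ) (Unitization ℂ A) := fun y x => by
    refine (hcen y x.snd).congr fun n => ?_
    conv_rhs => rw [← Unitization.inl_fst_add_inr_snd_eq x]
    rw [mul_add, add_mul, add_sub_add_comm]
    have hl : (Y y n : Unitization ℂ A) * Unitization.inl x.fst -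
        Unitization.inl x.fst * (Y y n : Unitization ℂ A) = 0 := by
      rw [← Unitization.algebraMap_eq_inl, ← Algebra.commutes, sub_self]
    show _ = (Y y n : Unitization ℂ A) * Unitization.inl x.fst -
      Unitization.inl x.fst * (Y y n : Unitization ℂ A) + _
    rw [hl, zero_add]
    rfl
  let φ : ZTwoThree → centralSeq (w : Filter ℕ) (Unitization ℂ A) :=
    fun f => ⟨F ⟨f.1, f.2⟩, hmem _⟩
  refine W.noChar_of_map (G := Unit) (α := fun _ => StarAlgEquiv.refl ℂ A) (φ := φ)
    { one := ?_, add := ?_, mul := ?_, smul := ?_, star_map := ?_, fixed := ?_ }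
  · intro f hf a
    set y : ZPair 2 3 := ⟨f.1, f.2⟩
    have hy : y = 1 := Subtype.ext (ContinuousMap.ext hf)
    have h1 : Tendsto (fun n => X y n * Φ a - Φ a) atTop (𝓝 0) :=
      tendsto_of_dense (fun n => LinearMap.mulLeft ℂ (X y n) - LinearMap.id) (‖y‖ + 1)
        (by positivity)
        (fun n x => (norm_sub_le _ _).trans (by
          have h1 := mul_le_mul_of_nonneg_right (hXb y n) (norm_nonneg x)
          have h2 := norm_mul_le (X y n) x
          simp only [LinearMap.mulLeft_apply, LinearMap.id_apply]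
          linarith))
        _ hT.dense (by
          rintro _ ⟨⟨b, c⟩, rfl⟩
          refine (tendsto_elem (ιA := ιA) (ιD := ιD) (C := ‖c‖) (hu b) (d := fun _ => c)
            fun _ => le_rfl).congr fun n => ?_
          show _ = elem ιA ιD (e n) (μ n y) * elem ιA ιD b c - elem ιA ιD b c
          rw [hy, map_one, elem_mul hT, one_mul, elem_sub_left]) (Φ a)
    refine (pull h1).congr fun n => ?_
    show _ = ((Y y n : Unitization ℂ A) - 1) * (a : Unitization ℂ A)
    rw [map_sub, map_mul, StarAlgEquiv.symm_apply_apply, Unitization.inr_sub, Unitization.inr_mul,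
      sub_mul, one_mul]
  · intro f g h hh a
    have hy : (⟨h.1, h.2⟩ : ZPair 2 3) = ⟨f.1, f.2⟩ + ⟨g.1, g.2⟩ :=
      Subtype.ext (ContinuousMap.ext hh)
    refine tendsto_const_nhds.congr fun n => ?_
    show _ = ((Y ⟨h.1, h.2⟩ n : Unitization ℂ A) -
      ((Y ⟨f.1, f.2⟩ n : Unitization ℂ A) + (Y ⟨g.1, g.2⟩ n : Unitization ℂ A))) * _
    simp only [Y, X, hy, map_add, elem_add_right, Unitization.inr_add, sub_self, zero_mul]
  · intro f g h hh a
    set yf : ZPair 2 3 := ⟨f.1, f.2⟩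
    set yg : ZPair 2 3 := ⟨g.1, g.2⟩
    set yh : ZPair 2 3 := ⟨h.1, h.2⟩
    have hy : yh = yf * yg := Subtype.ext (ContinuousMap.ext hh)
    have h1 := tendsto_mul_all hT (X := fun n => X yh n - X yf n * X yg n)
      (C := ‖yh‖ + ‖yf‖ * ‖yg‖) (by positivity)
      (fun n => (norm_sub_le _ _).trans (add_le_add (hXb yh n) ((norm_mul_le _ _).trans
        (mul_le_mul (hXb yf n) (hXb yg n) (norm_nonneg _) (norm_nonneg _)))))
      (fun b c => (tendsto_left hT hu (fun n => (he n).1) (norm_nonneg yf)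
        (fun n => NonUnitalStarAlgHom.norm_apply_le (μ n) yf)
        (fun n => NonUnitalStarAlgHom.norm_apply_le (μ n) yg) b c).congr fun n => by
          simp only [X, hy, map_mul]) (Φ a)
    refine (pull h1).congr fun n => ?_
    show _ = ((Y yh n : Unitization ℂ A) -
      (Y yf n : Unitization ℂ A) * (Y yg n : Unitization ℂ A)) * (a : Unitization ℂ A)
    rw [map_mul, map_sub, map_mul, StarAlgEquiv.symm_apply_apply, Unitization.inr_mul,
      Unitization.inr_sub, Unitization.inr_mul]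
  · intro c f h hh a
    have hy : (⟨h.1, h.2⟩ : ZPair 2 3) = c • ⟨f.1, f.2⟩ := Subtype.ext (ContinuousMap.ext hh)
    refine tendsto_const_nhds.congr fun n => ?_
    show _ = ((Y ⟨h.1, h.2⟩ n : Unitization ℂ A) - c • (Y ⟨f.1, f.2⟩ n : Unitization ℂ A)) * _
    simp only [Y, X, hy, map_smul, elem_smul_right, Unitization.inr_smul, sub_self, zero_mul]
  · intro f h hh a
    have hy : (⟨h.1, h.2⟩ : ZPair 2 3) = star ⟨f.1, f.2⟩ := Subtype.ext (ContinuousMap.ext hh)
    refine tendsto_const_nhds.congr fun n => ?_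
    show _ = ((Y ⟨h.1, h.2⟩ n : Unitization ℂ A) - star (Y ⟨f.1, f.2⟩ n : Unitization ℂ A)) * _
    rw [← Unitization.inr_star, hy]
    simp only [Y, X, ← map_star, star_elem hT, (he n).2, sub_self, zero_mul]
  · intro g f a
    refine tendsto_const_nhds.congr fun n => ?_
    show (0 : Unitization ℂ A) =
      (Unitization.starMap (NonUnitalStarAlgHom.id ℂ A) ((φ f).1 n) - (φ f).1 n) * _
    rw [Unitization.starMap_id]
    simp

end Vale.Agent.P095.Bridge
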