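import Vale.Agent.P101.Bridge.Assembly
import Vale.Agent.P101.Bridge.JiangSu
import Vale.Agent.P095.Bridge.NoChar
import Vale.Agent.P095.Bridge.Cocycle
import Vale.Agent.P095.W.Final

/-!
P095 bridge, assembly: Theorem W and the blocks give cocycle conjugacy of every action with its
stabilisation by the Jiang-Su algebra.
-/

namespace Vale.Agent.P095.Bridge

open Filter Vale.Agent.P101 Vale.Agent.P101.Bridge Vale.Agent.P101.DropN
open scoped Topology MultiplierAlgebra Matrix Matrix.Norms.L2Operator unitInterval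

theorem isSeparable_limit {S : Chain} {D : Type} [CStarAlgebra D]
    {ι : ∀ k, ZPair (S.p k) (S.q k) →⋆ₐ[ℂ] D} (hlim : IsLimit S ι) :
    TopologicalSpace.SeparableSpace D := by
  refine TopologicalSpace.isSeparable_univ_iff.1 ?_
  rw [← hlim.dense.closure_eq]
  refine (TopologicalSpace.IsSeparable.iUnion fun k => ?_).closure
  have : SecondCountableTopology C(I, Fib (S.p k) (S.q k)) := inferInstance
  exact TopologicalSpace.isSeparable_range (P101.Bridge.continuous_starAlgHom (ι k))

/-- The elementary tensor is a bounded bilinear map. -/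
theorem isBoundedBilinearMap_elem {A D B : Type} [NonUnitalCStarAlgebra A] [CStarAlgebra D]
    [NonUnitalCStarAlgebra B] (ιA : A →⋆ₙₐ[ℂ] B) (ιD : D →⋆ₐ[ℂ] 𝓜(ℂ, B)) :
    IsBoundedBilinearMap ℂ (fun z : A × D => elem ιA ιD z.1 z.2) where
  add_left := fun a a' d => elem_add_left a a' d
  smul_left := fun r a d => by simp [elem]
  add_right := fun a d d' => elem_add_right a d d'
  smul_right := fun r a d => elem_smul_right a r d
  bound := ⟨1, one_pos, fun a d => by rw [one_mul]; exact norm_elem_le a d⟩

/-- The blocks give the target. -/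
theorem targetPin_of (hC : CentralChainPin) (hT : TensorNUPin) (hU : UnitariesPin) :
    TargetPin := by
  obtain ⟨S, hS, hS'⟩ := hC
  obtain ⟨D, instD, ι, hlim, hten⟩ := hT S
  have hJS := JiangSu.jiangSuPin S hS D ι hlim
  have hD1 : (1 : D) ≠ 0 := fun h => by
    obtain ⟨τ, ⟨hτ, -, -⟩, -⟩ := hJS.2.2
    rw [h, map_zero] at hτ; exact zero_ne_one hτ
  refine ⟨D, instD, hJS, fun A _ _ hA hN ⟨B₀, _, ιA₀, ιD₀, hT₀, hiso⟩ G _ _ hG α =>
    ⟨hten A G α, fun B _ ιA ιD β hTB hβ => ?_⟩⟩
  set w : Ultrafilter ℕ := Filter.hyperfilter ℕ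
  have hw : (w : Filter ℕ) ≤ cofinite := Filter.hyperfilter_le_cofinite
  have hno := stableNoCharPin S hS' D ι hlim A w hw B₀ ιA₀ ιD₀ hT₀ hiso
  have hfix := ((W.conjectureA A hA hN w hw).2 hno G hG α).2
  have hHU := hU S hS D ι hlim A w hw G α hfix B ιA ιD β hTB hβ
  have he : ∀ a, elem ιA ιD a 1 = ιA a := fun a => by simp [elem]
  have hinj : Function.Injective ιA := by
    refine (injective_iff_map_eq_zero ιA).2 fun a ha => ?_
    have := hTB.injective 1 (fun _ => a) (fun _ => (1 : D))
      (LinearIndependent.of_subsingleton (i := (0 : Fin 1)) hD1) (by simp [he, ha])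
    exact congrFun this 0
  have : TopologicalSpace.SeparableSpace D := isSeparable_limit hlim
  have : TopologicalSpace.SeparableSpace B := by
    refine TopologicalSpace.isSeparable_univ_iff.1 ?_
    rw [← hTB.dense.closure_eq]
    exact ((TopologicalSpace.isSeparable_range
      (isBoundedBilinearMap_elem ιA ιD).continuous).span).closure
  refine Cocycle.cocyclePin A B G α β ιA hinj (fun g a => ?_) hHU
  have := hβ g a 1
  rwa [he, he] at this

end Vale.Agent.P095.Bridge
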