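import Vale.Agent.P095.Bridge.Pins
import Vale.Agent.P101.Bridge.CentralEnds
import Vale.Agent.P101.Bridge.Assembly

/-!
P095 bridge, C2: a chain of Jiang and Su with dimensions powers of 2 and 3, having almost central
copies of Z(2,3).
-/

namespace Vale.Agent.P095.Bridge

open Vale.Agent.P101 Vale.Agent.P101.Bridge Vale.Agent.P101.DropN
open scoped Matrix Matrix.Norms.L2Operator Kronecker unitInterval

namespace Central

/-- The exponents at one stage. -/
structure Expo where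
  a : ℕ
  b : ℕ
  one_a : 1 ≤ a
  one_b : 1 ≤ b

/-- A step into the stage `s'` with its properties. -/
def GoodStep (s s' : Expo) (φ : ZPair (2 ^ s.a) (3 ^ s.b) →⋆ₐ[ℂ] ZPair (2 ^ s'.a) (3 ^ s'.b)) :
    Prop :=
  Function.Injective φ ∧ StepContracts φ ∧ StepZeros φ ∧
    ∀ U : C(I, Fib (2 ^ s.a) (3 ^ s.b)), (∀ t, U t ∈ unitary (Fib (2 ^ s.a) (3 ^ s.b))) →
      U 0 = 1 → ∃ κ : ZPair 2 3 →⋆ₐ[ℂ] ZPair (2 ^ s'.a) (3 ^ s'.b),
        ∀ (x : ZPair (2 ^ s.a) (3 ^ s.b)) (y : ZPair 2 3) (η : ℝ),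
        (∀ t : I, ‖(x : C(I, Fib (2 ^ s.a) (3 ^ s.b))) t
          - U t * (x : C(I, Fib (2 ^ s.a) (3 ^ s.b))) 0 * star (U t)‖ ≤ η) →
        ‖(κ y : C(I, Fib (2 ^ s'.a) (3 ^ s'.b))) * (φ x : C(I, Fib (2 ^ s'.a) (3 ^ s'.b))) -
          (φ x : C(I, Fib (2 ^ s'.a) (3 ^ s'.b))) * (κ y : C(I, Fib (2 ^ s'.a) (3 ^ s'.b)))‖
          ≤ 6 * η * ‖(y : C(I, Fib 2 3))‖

theorem exists_next (s : Expo) : ∃ s' φ, GoodStep s s' φ := by
  obtain ⟨a', b', ha, hb, φ, h⟩ := P101.Bridge.Central.exists_central_step s.one_a s.one_b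
  exact ⟨⟨a', b', ha, hb⟩, φ, h⟩

/-- The next stage. -/
noncomputable def Expo.next (s : Expo) : Expo := (exists_next s).choose

/-- The connecting map. -/
noncomputable def Expo.hom (s : Expo) :
    ZPair (2 ^ s.a) (3 ^ s.b) →⋆ₐ[ℂ] ZPair (2 ^ s.next.a) (3 ^ s.next.b) :=
  (exists_next s).choose_spec.choose

theorem Expo.hom_spec (s : Expo) : GoodStep s s.next s.hom :=
  (exists_next s).choose_spec.choose_spec

/-- The stages. -/
noncomputable def expo : ℕ → Expo
  | 0 => ⟨1, 1, le_rfl, le_rfl⟩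
  | k + 1 => (expo k).next

/-- The chain. -/
noncomputable def centralChain : Chain where
  p k := 2 ^ (expo k).a
  q k := 3 ^ (expo k).b
  two_p k := Nat.le_self_pow (by have := (expo k).one_a; omega) 2
  two_q k := le_trans (by norm_num) (Nat.le_self_pow (by have := (expo k).one_b; omega) 3)
  coprime k := Nat.Coprime.pow _ _ (by norm_num)
  φ k := (expo k).hom
  injective k := (expo k).hom_spec.1

theorem contracts_comp (S : Chain) (h : ∀ n, StepContracts (S.φ n)) (k j : ℕ) :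
    Contracts (S.comp k j) ((1 / 2) ^ j) := by
  induction j with
  | zero =>
    refine ⟨1, fun t => one_mem _, fun x η δ hx s t hst => ?_⟩
    rw [pow_zero, one_mul] at hst
    simpa [Chain.comp] using hx s t hst
  | succ j ih =>
    obtain ⟨v, hv, hx⟩ := ih
    obtain ⟨w, hw, hstep⟩ := h (k + j) v hv
    refine ⟨w, hw, fun x η δ hd s t hst => ?_⟩
    refine hstep (S.comp k j x) η s t fun a b hab => hx x η δ hd a b ?_
    rw [pow_succ] at hst
    calc (1 / 2 : ℝ) ^ j * dist a b ≤ (1 / 2) ^ j * (dist s t / 2) :=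
          mul_le_mul_of_nonneg_left hab (by positivity)
      _ ≤ δ := by linarith

theorem zeros_comp (S : Chain) (hS : ∀ n, StepZeros (S.φ n)) (k j : ℕ)
    (x : ZPair (S.p k) (S.q k)) (t : I)
    (h : (S.comp k j x : C(I, Fib (S.p (k + j)) (S.q (k + j)))) t = 0)
    (m : ℕ) (hm : m < 2 ^ j) (r : I) (hr : (r : ℝ) = ((t : ℝ) + m) / 2 ^ j) :
    (x : C(I, Fib (S.p k) (S.q k))) r = 0 := by
  induction j generalizing t m with
  | zero =>
    obtain rfl : m = 0 := by simpa using hm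
    have : r = t := Subtype.ext (by simpa using hr)
    subst this
    exact h
  | succ j ih =>
    have hz := hS (k + j) (S.comp k j x) t
    rcases Nat.even_or_odd' m with ⟨m', rfl | rfl⟩
    · refine ih ⟨(t : ℝ) / 2, by constructor <;> linarith [t.2.1, t.2.2]⟩
        (hz _ h (Or.inl rfl)) m' (by rw [pow_succ] at hm; omega) ?_
      rw [hr, pow_succ]; push_cast; field_simp
    · refine ih ⟨((t : ℝ) + 1) / 2, by constructor <;> linarith [t.2.1, t.2.2]⟩
        (hz _ h (Or.inr rfl)) m' (by rw [pow_succ] at hm; omega) ?_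
      rw [hr, pow_succ]; push_cast; field_simp; ring

theorem reaches_comp (S : Chain) (hS : ∀ n, StepZeros (S.φ n)) (k j : ℕ) :
    Reaches (S.comp k j) ((1 / 2) ^ j) := by
  intro x t h r
  set N : ℕ := 2 ^ j with hN
  have hN1 : 1 ≤ N := Nat.one_le_two_pow
  have hN0 : (0 : ℝ) < N := by exact_mod_cast hN1
  set m := min ⌊(r : ℝ) * N⌋₊ (N - 1) with hm
  have hmN : m + 1 ≤ N := by omega
  have hlo : (m : ℝ) ≤ r * N :=
    le_trans (by exact_mod_cast min_le_left _ _) (Nat.floor_le (mul_nonneg r.2.1 hN0.le))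
  have hhi : (r : ℝ) * N ≤ m + 1 := by
    rcases le_or_gt ⌊(r : ℝ) * N⌋₊ (N - 1) with hle | hgt
    · rw [hm, min_eq_left hle]; exact (Nat.lt_floor_add_one _).le
    · rw [hm, min_eq_right hgt.le, Nat.cast_sub hN1]
      push_cast
      nlinarith [r.2.2]
  have hm1 : (m : ℝ) + 1 ≤ N := by exact_mod_cast hmN
  let r' : I := ⟨((t : ℝ) + m) / N, by
    constructor
    · exact div_nonneg (add_nonneg t.2.1 (Nat.cast_nonneg m)) hN0.le
    · rw [div_le_one hN0]; linarith [t.2.2]⟩
  refine ⟨r', ?_, zeros_comp S hS k j x t h m (by omega) r' (by simp [r', hN])⟩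
  have hr : (1 / 2 : ℝ) ^ j = 1 / N := by rw [hN]; push_cast; rw [div_pow, one_pow]
  rw [hr, Subtype.dist_eq, Real.dist_eq, show ((r' : ℝ)) = ((t : ℝ) + m) / N from rfl,
    show (r : ℝ) - ((t : ℝ) + m) / N = ((r : ℝ) * N - t - m) / N by field_simp; ring,
    abs_div, abs_of_pos hN0]
  refine div_le_div_of_nonneg_right (abs_le.2 ⟨?_, ?_⟩) hN0.le <;> linarith [t.2.1, t.2.2]

theorem contracts_chain (k j : ℕ) : Contracts (centralChain.comp k j) ((1 / 2) ^ j) :=
  contracts_comp centralChain (fun n => (expo n).hom_spec.2.1) k j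

theorem hasCentralCopies : HasCentralCopies centralChain := by
  intro k F ε hε
  obtain ⟨j, U, hU, hU0, hx⟩ := exists_stage contracts_chain k F (show 0 < ε / 6 by positivity)
  obtain ⟨κ, hκ⟩ := (expo (k + j)).hom_spec.2.2.2 U hU hU0
  refine ⟨j + 1, κ, fun x hxF y => ?_⟩
  refine le_trans (hκ (centralChain.comp k j x) y (ε / 6) (hx x hxF)) ?_
  have := norm_nonneg (y : C(I, Fib 2 3))
  nlinarith

end Central

/-- C2. -/
theorem centralChainPin : CentralChainPin :=
  ⟨Central.centralChain, fun k j => ⟨Central.contracts_chain k j,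
    Central.reaches_comp Central.centralChain (fun n => (Central.expo n).hom_spec.2.2.1) k j⟩,
    Central.hasCentralCopies⟩

end Vale.Agent.P095.Bridge
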