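import Vale.Agent.P095.Bridge.Pins
import Vale.Agent.P101.Bridge.HalfFlip

/-!
P095 bridge, block H2: the half flip unitary is joined to one by small steps inside the square
algebra (first shrink the path, then the two phases).
-/

namespace Vale.Agent.P095.Bridge

open Vale.Agent.P101.Bridge Vale.Agent.P101.Bridge.HalfFlip Vale.Agent.P101.DropN
open scoped Topology Matrix Matrix.Norms.L2Operator Kronecker unitInterval

variable {P Q : ℕ}

theorem phase_neg_one {n : Type} [DecidableEq n] (W : Matrix n n ℂ) : phase W (-1) = W := by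
  have e : Complex.exp (((-1 : ℝ) : ℂ) * Real.pi * Complex.I) = -1 := by
    rw [show ((-1 : ℝ) : ℂ) * Real.pi * Complex.I = -(Real.pi * Complex.I) by push_cast; ring,
      Complex.exp_neg, Complex.exp_pi_mul_I]
    norm_num
  simp only [phase, e, neg_smul, neg_mul, one_mul, ← sub_eq_add_neg, ← smul_sub]
  rw [show (1 + W) - (1 - W) = (2 : ℂ) • W by rw [two_smul]; abel, smul_smul]
  norm_num

/-- The two phases, scaled by `r`. -/
noncomputable def phases (h r : ℝ) (z : I × I) : Fib2 P Q :=
  phase (sP P Q) (r * (bP h z.1 z.2 - 1)) * phase (sQ P Q) (r * (bQ h z.1 z.2 - 1))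

theorem continuous_phases (h : ℝ) :
    Continuous fun x : ℝ × (I × I) => (phases h x.1 x.2 : Fib2 P Q) := by
  have hp := continuous_phase (sP P Q)
  have hq := continuous_phase (sQ P Q)
  have hc := continuous_clamp
  have b1 : Continuous fun z : I × I => bP h z.1 z.2 := by unfold bP; fun_prop
  have b2 : Continuous fun z : I × I => bQ h z.1 z.2 := by unfold bQ; fun_prop
  unfold phases
  fun_prop

theorem continuous_phases_unit (h : ℝ) :
    Continuous fun x : I × (I × I) => (phases h x.1 x.2 : Fib2 P Q) :=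
  Continuous.comp (g := fun y : ℝ × (I × I) => (phases h y.1 y.2 : Fib2 P Q))
    (f := fun x : I × (I × I) => ((x.1 : ℝ), x.2)) (continuous_phases h) (by fun_prop)

theorem flipper_one (h : ℝ) (z : I × I) :
    flipper h (1 : C(I, Fib P Q)) z = phases h 1 z := by
  have hq := sQ_sq P Q
  have hc : ∀ x, Commute (phase (sQ P Q) x) (phase (sP P Q) (bP h z.1 z.2)) := fun x =>
    commute_phase (commute_phase (commute_sP_sQ P Q) (bP h z.1 z.2)).symm x
  simp only [flipper, middle, gConj, phases, ContinuousMap.one_apply, map_one, star_one, one_mul,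
    mul_one]
  rw [(hc _).eq, mul_assoc (phase (sP P Q) _), phase_mul hq,
    show bQ h z.1 z.2 * split z.1 z.2 + bQ h z.1 z.2 * (1 - split z.1 z.2) = bQ h z.1 z.2 by ring,
    sub_eq_add_neg (bP h z.1 z.2), sub_eq_add_neg (bQ h z.1 z.2), ← phase_mul hq,
    ← phase_mul (sP_sq P Q), phase_neg_one, phase_neg_one, flip2]
  have c1 : Commute (sQ P Q) (phase (sP P Q) (bP h z.1 z.2)) :=
    (commute_phase (commute_sP_sQ P Q) _).symm
  have c2 : Commute (sP P Q) (phase (sP P Q) (bP h z.1 z.2)) :=
    (commute_phase (Commute.refl _) _).symm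
  have c3 : Commute (sQ P Q) (phase (sQ P Q) (bQ h z.1 z.2)) :=
    (commute_phase (Commute.refl _) _).symm
  calc sP P Q * sQ P Q * (phase (sP P Q) (bP h z.1 z.2) * phase (sQ P Q) (bQ h z.1 z.2))
      = sP P Q * (sQ P Q * phase (sP P Q) (bP h z.1 z.2)) * phase (sQ P Q) (bQ h z.1 z.2) := by
        simp only [mul_assoc]
    _ = sP P Q * (phase (sP P Q) (bP h z.1 z.2) * sQ P Q) * phase (sQ P Q) (bQ h z.1 z.2) := by
        rw [c1.eq]
    _ = (sP P Q * phase (sP P Q) (bP h z.1 z.2)) * (sQ P Q * phase (sQ P Q) (bQ h z.1 z.2)) := by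
        simp only [mul_assoc]
    _ = _ := by rw [c2.eq, c3.eq]

theorem phases_zero (h : ℝ) (z : I × I) : (phases h 0 z : Fib2 P Q) = 1 := by
  simp [phases, phase_zero]

theorem phases_unitary (h r : ℝ) (z : I × I) : phases h r z ∈ unitary (Fib2 P Q) :=
  mul_mem (phase_unitary (star_sP P Q) (sP_sq P Q) _) (phase_unitary (star_sQ P Q) (sQ_sq P Q) _)

theorem phases_boundary {h : ℝ} (hh0 : 0 < h) (r : ℝ) (s : I) :
    (∀ b : Matrix (Fin Q) (Fin Q) ℂ,
      Commute (phases h r (0, s) : Fib2 P Q)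
        (lefts P Q ((1 : Matrix (Fin P) (Fin P) ℂ) ⊗ₖ b)) ∧
      Commute (phases h r (s, 0) : Fib2 P Q)
        (rights P Q ((1 : Matrix (Fin P) (Fin P) ℂ) ⊗ₖ b))) ∧
    ∀ a : Matrix (Fin P) (Fin P) ℂ,
      Commute (phases h r (1, s) : Fib2 P Q)
        (lefts P Q (a ⊗ₖ (1 : Matrix (Fin Q) (Fin Q) ℂ))) ∧
      Commute (phases h r (s, 1) : Fib2 P Q)
        (rights P Q (a ⊗ₖ (1 : Matrix (Fin Q) (Fin Q) ℂ))) := by
  refine ⟨fun b => ⟨?_, ?_⟩, fun a => ⟨?_, ?_⟩⟩
  · simp only [phases, min_zero_bQ (s := (0 : I)) (t := s) hh0 (Or.inl rfl), sub_self, mul_zero,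
      phase_zero, mul_one]
    exact commute_phase (sP_commute_left P Q b) _
  · simp only [phases, min_zero_bQ (s := s) (t := (0 : I)) hh0 (Or.inr rfl), sub_self, mul_zero,
      phase_zero, mul_one]
    exact commute_phase (sP_commute_right P Q b) _
  · simp only [phases, max_one_bP (s := (1 : I)) (t := s) hh0 (Or.inl rfl), sub_self, mul_zero,
      phase_zero, one_mul]
    exact commute_phase (sQ_commute_left P Q a) _
  · simp only [phases, max_one_bP (s := s) (t := (1 : I)) hh0 (Or.inr rfl), sub_self, mul_zero,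
      phase_zero, one_mul]
    exact commute_phase (sQ_commute_right P Q a) _

/-- The path shrunk by the factor `r`. -/
noncomputable def shrink (U : C(I, Fib P Q)) (r : I) : C(I, Fib P Q) :=
  U.comp ⟨fun t => r * t, by fun_prop⟩

theorem continuous_flipper_shrink (h : ℝ) (U : C(I, Fib P Q)) :
    Continuous fun x : I × (I × I) => flipper h (shrink U x.1) x.2 := by
  have hu : ∀ f : I × (I × I) → I, Continuous f →
      Continuous fun x : I × (I × I) => shrink U x.1 (f x) := fun f hf =>
    (map_continuous U).comp (continuous_fst.mul hf)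
  have hk := continuous_collar h
  have s1 : Continuous fun x : I × (I × I) => shrink U x.1 1 := hu _ continuous_const
  have p1 : Continuous fun x : I × (I × I) => rights P Q (shrink U x.1 (collar h x.2.2)) :=
    (continuous_rights P Q).comp (hu _ (hk.comp (continuous_snd.comp continuous_snd)))
  have p2 : Continuous fun x : I × (I × I) =>
      lefts P Q (star (shrink U x.1 (collar h x.2.1))) :=
    (continuous_lefts P Q).comp (hu _ (hk.comp (continuous_fst.comp continuous_snd))).star
  have hc := continuous_clamp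
  have b1 : Continuous fun z : I × I => bP h z.1 z.2 := by unfold bP; fun_prop
  have b2 : Continuous fun z : I × I => bQ h z.1 z.2 := by unfold bQ; fun_prop
  have b3 : Continuous fun z : I × I => split z.1 z.2 := by unfold split; fun_prop
  have g1 : Continuous fun x : I × (I × I) => gConj (shrink U x.1) (bP h x.2.1 x.2.2) :=
    ((((continuous_lefts P Q).comp s1).star.mul
      ((continuous_phase (sP P Q)).comp (b1.comp continuous_snd))).mul
      ((continuous_lefts P Q).comp s1))
  have q1 : Continuous fun x : I × (I × I) =>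
      phase (sQ P Q) (bQ h x.2.1 x.2.2 * split x.2.1 x.2.2) :=
    (continuous_phase (sQ P Q)).comp ((b2.mul b3).comp continuous_snd)
  have q2 : Continuous fun x : I × (I × I) =>
      phase (sQ P Q) (bQ h x.2.1 x.2.2 * (1 - split x.2.1 x.2.2)) :=
    (continuous_phase (sQ P Q)).comp ((b2.mul (continuous_const.sub b3)).comp continuous_snd)
  exact ((p1.mul continuous_const).mul ((q1.mul g1).mul q2)).mul p2

theorem mem_squareSet_of_commute {f : C(I × I, Fib2 P Q)}
    (h : ∀ s, (∀ b : Matrix (Fin Q) (Fin Q) ℂ,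
      Commute (f (0, s)) (lefts P Q ((1 : Matrix (Fin P) (Fin P) ℂ) ⊗ₖ b)) ∧
      Commute (f (s, 0)) (rights P Q ((1 : Matrix (Fin P) (Fin P) ℂ) ⊗ₖ b))) ∧
    ∀ a : Matrix (Fin P) (Fin P) ℂ,
      Commute (f (1, s)) (lefts P Q (a ⊗ₖ (1 : Matrix (Fin Q) (Fin Q) ℂ))) ∧
      Commute (f (s, 1)) (rights P Q (a ⊗ₖ (1 : Matrix (Fin Q) (Fin Q) ℂ)))) :
    f ∈ squareSet P Q := fun r =>
  ⟨fun b => by rw [← lefts_apply, ← rights_apply]; exact (h r).1 b,
    fun a => by rw [← lefts_apply, ← rights_apply]; exact (h r).2 a⟩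

/-- Joined by small steps through unitaries of the square algebra. -/
def Steps (f g : C(I × I, Fib2 P Q)) : Prop :=
  ∃ (N : ℕ) (v : ℕ → C(I × I, Fib2 P Q)), v 0 = f ∧ v N = g ∧
    ∀ i, v i ∈ squareSet P Q ∧ (∀ z, v i z ∈ unitary (Fib2 P Q)) ∧ ∀ z, ‖v (i + 1) z - v i z‖ ≤ 1

theorem Steps.trans {f g k : C(I × I, Fib2 P Q)} (h₁ : Steps f g) (h₂ : Steps g k) :
    Steps f k := by
  obtain ⟨N, v, hv0, hvN, hv⟩ := h₁
  obtain ⟨M, w, hw0, hwM, hw⟩ := h₂
  let c : ℕ → C(I × I, Fib2 P Q) := fun i => if i ≤ N then v i else w (i - N)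
  have ev : ∀ i, i ≤ N → c i = v i := fun i hi => if_pos hi
  have ew : ∀ i, c (N + i) = w i := by
    intro i
    rcases Nat.eq_zero_or_pos i with rfl | hi
    · rw [add_zero, ev N le_rfl, hvN, hw0]
    · show (if N + i ≤ N then v (N + i) else w (N + i - N)) = w i
      rw [if_neg (by omega), Nat.add_sub_cancel_left]
  refine ⟨N + M, c, (ev 0 (Nat.zero_le _)).trans hv0, (ew M).trans hwM, fun i => ?_⟩
  rcases lt_or_ge i N with hi | hi
  · rw [ev i hi.le, ev (i + 1) (by omega)]
    exact hv i
  · obtain ⟨j, rfl⟩ := Nat.exists_eq_add_of_le hi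
    rw [add_assoc, ew, ew]
    exact hw j

theorem steps_of_homotopy (T : C(I × (I × I), Fib2 P Q))
    (hm : ∀ r, (⟨fun z => T (r, z), by fun_prop⟩ : C(I × I, Fib2 P Q)) ∈ squareSet P Q)
    (hu : ∀ x, T x ∈ unitary (Fib2 P Q)) :
    Steps (⟨fun z => T (0, z), by fun_prop⟩ : C(I × I, Fib2 P Q))
      ⟨fun z => T (1, z), by fun_prop⟩ := by
  obtain ⟨d, hd, ud⟩ := Metric.uniformContinuous_iff.1
    (CompactSpace.uniformContinuous_of_continuous (map_continuous T)) 1 one_pos
  obtain ⟨N, hN⟩ := exists_nat_gt (1 / d)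
  have hNp : (0 : ℝ) < N := lt_trans (by positivity) hN
  let node : ℕ → I := fun i => Set.projIcc 0 1 zero_le_one ((i : ℝ) / N)
  have hstep : ∀ i, dist (node (i + 1)) (node i) < d := by
    intro i
    refine lt_of_le_of_lt ((LipschitzWith.projIcc zero_le_one).dist_le_mul _ _) ?_
    rw [NNReal.coe_one, one_mul, Real.dist_eq, Nat.cast_add, Nat.cast_one, ← sub_div,
      add_sub_cancel_left, abs_of_pos (by positivity), one_div_lt hNp hd]
    exact hN
  have node0 : node 0 = 0 := Set.projIcc_of_le_left _ (by simp)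
  have nodeN : node N = 1 := Set.projIcc_of_right_le _ (by rw [div_self hNp.ne'])
  refine ⟨N, fun i => ⟨fun z => T (node i, z), by fun_prop⟩, ?_, ?_, fun i =>
    ⟨hm _, fun z => hu _, fun z => ?_⟩⟩
  · refine ContinuousMap.ext fun z => ?_
    show T (node 0, z) = T (0, z)
    rw [node0]
  · refine ContinuousMap.ext fun z => ?_
    show T (node N, z) = T (1, z)
    rw [nodeN]
  · show ‖T (node (i + 1), z) - T (node i, z)‖ ≤ 1
    rw [← dist_eq_norm]
    exact (ud (by rw [Prod.dist_eq, dist_self]; exact max_lt (hstep i) hd)).le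

theorem steps_phases {h : ℝ} (hh0 : 0 < h) :
    Steps (1 : C(I × I, Fib2 P Q)) ⟨flipper h (1 : C(I, Fib P Q)), continuous_flipper h _⟩ := by
  let T : C(I × (I × I), Fib2 P Q) :=
    ⟨fun x => phases h x.1 x.2, continuous_phases_unit h⟩
  have := steps_of_homotopy T (fun r => mem_squareSet_of_commute fun s => by
      simp only [ContinuousMap.coe_mk, T]
      exact phases_boundary hh0 (r : ℝ) s) fun x => by
        simp only [ContinuousMap.coe_mk, T]
        exact phases_unitary h (x.1 : ℝ) x.2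
  convert this using 1
  · refine ContinuousMap.ext fun z => ?_
    show (1 : Fib2 P Q) = phases h ((0 : I) : ℝ) z
    rw [Set.Icc.coe_zero, phases_zero]
  · refine ContinuousMap.ext fun z => ?_
    show flipper h (1 : C(I, Fib P Q)) z = phases h ((1 : I) : ℝ) z
    rw [Set.Icc.coe_one, flipper_one]

theorem steps_shrink {h : ℝ} (hh0 : 0 < h) (hh1 : h ≤ 1 / 4) (U : C(I, Fib P Q))
    (hU : ∀ t, U t ∈ unitary (Fib P Q)) (hU0 : U 0 = 1) :
    Steps (⟨flipper h (1 : C(I, Fib P Q)), continuous_flipper h _⟩ : C(I × I, Fib2 P Q))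
      ⟨flipper h U, continuous_flipper h U⟩ := by
  let T : C(I × (I × I), Fib2 P Q) :=
    ⟨fun x => flipper h (shrink U x.1) x.2, continuous_flipper_shrink h U⟩
  have := steps_of_homotopy T (fun r => mem_squareSet_of_commute fun s => by
      simp only [ContinuousMap.coe_mk, T]
      have hu : ∀ t, shrink U r t ∈ unitary (Fib P Q) := fun t => hU _
      have h0 : shrink U r 0 = 1 := by simp [shrink, hU0]
      exact ⟨fun b => ⟨flipper_left hh0 hh1 hu h0 s b, flipper_bottom hh0 hh1 hu h0 s b⟩,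
        fun a => ⟨flipper_right hh0 hh1 hu s a, flipper_top hh0 hh1 hu s a⟩⟩)
    fun x => by
      simp only [ContinuousMap.coe_mk, T]
      exact flipper_unitary (U := shrink U x.1) (fun t => hU _) x.2
  have e0 : shrink U 0 = 1 := ContinuousMap.ext fun t => by simp [shrink, hU0]
  have e1 : shrink U 1 = U := ContinuousMap.ext fun t => by simp [shrink]
  convert this using 1
  · exact ContinuousMap.ext fun z => by
      show flipper h 1 z = flipper h (shrink U 0) z
      rw [e0]
  · exact ContinuousMap.ext fun z => by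
      show flipper h U z = flipper h (shrink U 1) z
      rw [e1]

/-- Block H2. -/
theorem halfFlipStepsPin : HalfFlipStepsPin := by
  intro P Q F U ε hε hU hU0 hF
  obtain ⟨h, hh0, hh1, hest⟩ := exists_width P Q F U ε hε hU hF
  obtain ⟨N, v, hv0, hvN, hv⟩ := (steps_phases hh0).trans (steps_shrink hh0 hh1 U hU hU0)
  refine ⟨N, v, hv0, hv, fun x hx s t => ?_⟩
  rw [hvN]
  exact hest x hx s t

end Vale.Agent.P095.Bridge
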