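import Vale.Agent.P095.Bridge.Pins
import Vale.Agent.P101.Bridge.Assembly

/-!
P095 bridge, U: automorphisms on multipliers, and the unitization of `A` inside the multipliers of a
tensor product.
-/

namespace Vale.Agent.P095.Bridge

open Filter Vale.Agent.P101 Vale.Agent.P101.Bridge Vale.Agent.P101.DropN
open scoped Topology MultiplierAlgebra

section Mult

variable {B : Type} [NonUnitalCStarAlgebra B]

/-- Elements with the same products on the left are equal. -/
lemma eq_of_forall_mul_left {y z : B} (h : ∀ x : B, x * y = x * z) : y = z := by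
  have := h (star (y - z))
  rw [← sub_eq_zero, ← mul_sub, CStarRing.star_mul_self_eq_zero_iff, sub_eq_zero] at this
  exact this

lemma fst_mul_right (m : 𝓜(ℂ, B)) (b c : B) : m.fst (b * c) = m.fst b * c :=
  eq_of_forall_mul_left fun x => by
    rw [← mul_assoc x, ← m.central, ← m.central, mul_assoc]

lemma snd_mul_left (m : 𝓜(ℂ, B)) (b c : B) : m.snd (b * c) = b * m.snd c := by
  have h := fst_mul_right (star m) (star c) (star b)
  simp only [DoubleCentralizer.star_fst, ← star_mul, star_star] at h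
  exact star_injective h

lemma mult_ext_fst {m m' : 𝓜(ℂ, B)} (h : ∀ b, m.fst b = m'.fst b) : m = m' := by
  have hs : ∀ x, m.snd x = m'.snd x := fun x => star_injective (eq_of_forall_mul_left fun y => by
    apply star_injective
    simp only [star_mul, star_star]
    rw [m.central, m'.central, h])
  exact DoubleCentralizer.ext _ _ _ _
    (Prod.ext (ContinuousLinearMap.ext h) (ContinuousLinearMap.ext hs))

lemma mul_coeHom (m : 𝓜(ℂ, B)) (b : B) :
    m * DoubleCentralizer.coeHom b = DoubleCentralizer.coeHom (m.fst b) := by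
  refine mult_ext_fst fun c => ?_
  rw [DoubleCentralizer.mul_fst]
  exact fst_mul_right m b c

lemma coeHom_mul (m : 𝓜(ℂ, B)) (b : B) :
    DoubleCentralizer.coeHom b * m = DoubleCentralizer.coeHom (m.snd b) := by
  refine mult_ext_fst fun c => ?_
  rw [DoubleCentralizer.mul_fst]
  exact (m.central b c).symm

lemma coeHom_injective : Function.Injective (DoubleCentralizer.coeHom : B → 𝓜(ℂ, B)) :=
  fun b c h => by
    refine star_injective (eq_of_forall_mul_left fun x => star_injective ?_)
    simp only [star_mul, star_star]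
    exact DFunLike.congr_fun (congrArg (fun m : 𝓜(ℂ, B) => m.fst) h) (star x)

lemma norm_coeHom (b : B) : ‖(DoubleCentralizer.coeHom b : 𝓜(ℂ, B))‖ = ‖b‖ :=
  NonUnitalStarAlgHom.norm_map _ coeHom_injective b

/-- An automorphism as a continuous linear map. -/
noncomputable def autL (e : B ≃⋆ₐ[ℂ] B) : B →L[ℂ] B :=
  LinearMap.mkContinuous
    { toFun := e, map_add' := fun x y => map_add e x y, map_smul' := fun c x => map_smul e c x } 1
    fun x => by rw [one_mul]; exact NonUnitalStarAlgHom.norm_apply_le e x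

lemma autL_apply (e : B ≃⋆ₐ[ℂ] B) (x : B) : autL e x = e x := rfl

/-- The extension of an automorphism to the multipliers, on one multiplier. -/
noncomputable def multAut (e : B ≃⋆ₐ[ℂ] B) (m : 𝓜(ℂ, B)) : 𝓜(ℂ, B) where
  toProd := ((autL e).comp (m.fst.comp (autL e.symm)), (autL e).comp (m.snd.comp (autL e.symm)))
  central x y := by
    show e (m.snd (e.symm x)) * y = x * e (m.fst (e.symm y))
    conv_lhs => rw [← e.apply_symm_apply y, ← map_mul, m.central, map_mul, e.apply_symm_apply]

lemma multAut_fst (e : B ≃⋆ₐ[ℂ] B) (m : 𝓜(ℂ, B)) (b : B) :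
    (multAut e m).fst b = e (m.fst (e.symm b)) := rfl

/-- The extension of an automorphism to the multipliers. -/
noncomputable def multMap (e : B ≃⋆ₐ[ℂ] B) : 𝓜(ℂ, B) →⋆ₐ[ℂ] 𝓜(ℂ, B) where
  toFun := multAut e
  map_one' := mult_ext_fst fun b => by simp [multAut_fst]
  map_mul' m m' := mult_ext_fst fun b => by
    simp [multAut_fst, DoubleCentralizer.mul_fst]
  map_zero' := mult_ext_fst fun b => by simp [multAut_fst]
  map_add' m m' := mult_ext_fst fun b => by simp [multAut_fst]
  commutes' r := mult_ext_fst fun b => by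
    simp [multAut_fst, DoubleCentralizer.algebraMap_fst, Algebra.algebraMap_eq_smul_one]
  map_star' m := mult_ext_fst fun b => by
    show e ((star m).fst (e.symm b)) = (star (multAut e m)).fst b
    rw [DoubleCentralizer.star_fst, DoubleCentralizer.star_fst]
    show e (star (m.snd (star (e.symm b)))) = star (e (m.snd (e.symm (star b))))
    rw [map_star, ← map_star e.symm]

lemma multMap_coeHom (e : B ≃⋆ₐ[ℂ] B) (b : B) :
    multMap e (DoubleCentralizer.coeHom b) = DoubleCentralizer.coeHom (e b) := by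
  refine mult_ext_fst fun c => ?_
  show e (b * e.symm c) = e b * c
  rw [map_mul, e.apply_symm_apply]

lemma continuous_multMap (e : B ≃⋆ₐ[ℂ] B) : Continuous (multMap e) :=
  continuous_starAlgHom (multMap e)

lemma norm_multMap_le (e : B ≃⋆ₐ[ℂ] B) (m : 𝓜(ℂ, B)) : ‖multMap e m‖ ≤ ‖m‖ :=
  NonUnitalStarAlgHom.norm_apply_le (multMap e) m

end Mult

section Unit

variable {A D B : Type} [NonUnitalCStarAlgebra A] [CStarAlgebra D] [NonUnitalCStarAlgebra B]
  {ιA : A →⋆ₙₐ[ℂ] B} {ιD : D →⋆ₐ[ℂ] 𝓜(ℂ, B)}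

/-- The copy of `A` inside the multipliers. -/
noncomputable def inM (ιA : A →⋆ₙₐ[ℂ] B) : A →⋆ₙₐ[ℂ] 𝓜(ℂ, B) :=
  DoubleCentralizer.coeHom.comp ιA

lemma inM_apply (ιA : A →⋆ₙₐ[ℂ] B) (a : A) : inM ιA a = DoubleCentralizer.coeHom (ιA a) := rfl

/-- The unitization inside the multipliers. -/
noncomputable def unitIn (ιA : A →⋆ₙₐ[ℂ] B) : Unitization ℂ A →⋆ₐ[ℂ] 𝓜(ℂ, B) :=
  Unitization.starLift (inM ιA)

lemma unitIn_inr (ιA : A →⋆ₙₐ[ℂ] B) (a : A) : unitIn ιA (a : Unitization ℂ A) = inM ιA a := by
  rw [← Unitization.starLift_symm_apply_apply (unitIn ιA) a, unitIn, Equiv.symm_apply_apply]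

lemma mul_inr_eq (x : Unitization ℂ A) (a : A) :
    x * (a : Unitization ℂ A) = ((x * (a : Unitization ℂ A)).snd : Unitization ℂ A) := by
  ext <;> simp

lemma coeHom_elem (a : A) (d : D) :
    DoubleCentralizer.coeHom (elem ιA ιD a d) = ιD d * inM ιA a :=
  (mul_coeHom _ _).symm

lemma commute_unitIn (hc : ∀ a d, Commute (DoubleCentralizer.coeHom (ιA a)) (ιD d))
    (x : Unitization ℂ A) (d : D) : Commute (unitIn ιA x) (ιD d) := by
  rw [← Unitization.inl_fst_add_inr_snd_eq x, map_add, unitIn_inr]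
  refine Commute.add_left ?_ (hc _ d)
  rw [← Unitization.algebraMap_eq_inl, AlgHomClass.commutes]
  exact Algebra.commutes _ _

variable {G : Type} [Group G] {α : G →* (A ≃⋆ₐ[ℂ] A)} {β : G →* (B ≃⋆ₐ[ℂ] B)}

lemma beta_ιA (h : IsTensorAction ιA ιD α β) (g : G) (a : A) : β g (ιA a) = ιA (α g a) := by
  simpa [elem] using h g a 1

lemma multMap_inM (h : IsTensorAction ιA ιD α β) (g : G) (a : A) :
    multMap (β g) (inM ιA a) = inM ιA (α g a) := by
  rw [inM_apply, multMap_coeHom, beta_ιA h, inM_apply]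

lemma multMap_unitIn (h : IsTensorAction ιA ιD α β) (g : G) (x : Unitization ℂ A) :
    multMap (β g) (unitIn ιA x) = unitIn ιA (unitMap (α g) x) := by
  have he : (multMap (β g)).comp (unitIn ιA) = (unitIn ιA).comp (unitMap (α g)) := by
    refine Unitization.starAlgHom_ext (NonUnitalStarAlgHom.ext fun a => ?_)
    show multMap (β g) (unitIn ιA a) = unitIn ιA (unitMap (α g) a)
    rw [unitIn_inr, multMap_inM h, unitMap, Unitization.starMap_inr, unitIn_inr]
    rfl
  exact DFunLike.congr_fun he x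

lemma multMap_ιD (hT : IsTensor ιA ιD) (h : IsTensorAction ιA ιD α β) (g : G) (d : D) :
    multMap (β g) (ιD d) = ιD d := by
  refine mult_ext_fst fun b => ?_
  obtain ⟨c, rfl⟩ := (β g).surjective b
  show β g ((ιD d).fst ((β g).symm (β g c))) = (ιD d).fst (β g c)
  rw [StarAlgEquiv.symm_apply_apply]
  refine DFunLike.congr_fun (show (autL (β g)).comp (ιD d).fst = (ιD d).fst.comp (autL (β g)) from
    ContinuousLinearMap.ext_on hT.dense ?_) c
  rintro _ ⟨⟨a, d'⟩, rfl⟩
  have he : ∀ a, (ιD d).fst (elem ιA ιD a d') = elem ιA ιD a (d * d') := fun a => by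
    simp only [elem, map_mul, DoubleCentralizer.mul_fst]
    rfl
  show β g ((ιD d).fst (elem ιA ιD a d')) = (ιD d).fst (β g (elem ιA ιD a d'))
  rw [he, h g a (d * d'), h g a d', he]

end Unit

end Vale.Agent.P095.Bridge
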