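import Vale.Agent.P095.Rel.Ideal
import Vale.Agent.P101.Bridge.Assembly

/-!
P095 bridge, U: bounded sequences central relative to a nonunital homomorphism `e`, modulo those
annihilating its range; unitaries near one lift to unitaries.
-/

namespace Vale.Agent.P095.Bridge

open Filter Vale.Agent.P101
open scoped Topology BoundedContinuousFunction

variable {A C : Type} [NonUnitalCStarAlgebra A] [CStarAlgebra C] (e : A →⋆ₙₐ[ℂ] C)
  (w : Ultrafilter ℕ)

lemma tendsto_bdd_mul {u : ℕ → C} (v : ℕ →ᵇ C) (hu : Tendsto u (w : Filter ℕ) (𝓝 0)) :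
    Tendsto (fun n => v n * u n) (w : Filter ℕ) (𝓝 0) :=
  squeeze_zero_norm (fun n => (norm_mul_le _ _).trans
    (mul_le_mul_of_nonneg_right (v.norm_coe_le_norm n) (norm_nonneg _)))
    (by simpa using (tendsto_zero_iff_norm_tendsto_zero.1 hu).const_mul ‖v‖)

lemma tendsto_mul_bdd {u : ℕ → C} (v : ℕ →ᵇ C) (hu : Tendsto u (w : Filter ℕ) (𝓝 0)) :
    Tendsto (fun n => u n * v n) (w : Filter ℕ) (𝓝 0) :=
  squeeze_zero_norm (fun n => (norm_mul_le _ _).trans
    (mul_le_mul_of_nonneg_left (v.norm_coe_le_norm n) (norm_nonneg _)))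
    (by simpa using (tendsto_zero_iff_norm_tendsto_zero.1 hu).mul_const ‖v‖)

/-- Bounded sequences asymptotically commuting with the range of `e`. -/
def relCentral : StarSubalgebra ℂ (ℕ →ᵇ C) where
  carrier := {f | ∀ a, Tendsto (fun n => f n * e a - e a * f n) (w : Filter ℕ) (𝓝 0)}
  mul_mem' {f g} hf hg a := by
    have h := (tendsto_bdd_mul w f (hg a)).add (tendsto_mul_bdd w g (hf a))
    simp only [add_zero] at h
    refine h.congr fun n => ?_
    simp [mul_sub, sub_mul, mul_assoc]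
  add_mem' {f g} hf hg a := by
    have h := (hf a).add (hg a)
    simp only [add_zero] at h
    refine h.congr fun n => ?_
    simp [mul_add, add_mul]
    abel
  algebraMap_mem' c a := by
    refine tendsto_const_nhds.congr fun n => ?_
    simp [Algebra.algebraMap_eq_smul_one]
  star_mem' {f} hf a := by
    have h := ((hf (star a)).star).neg
    simp only [star_zero, neg_zero] at h
    refine h.congr fun n => ?_
    simp [star_sub, star_mul, map_star]

theorem isClosed_relCentral : IsClosed (relCentral e w : Set (ℕ →ᵇ C)) := by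
  refine isClosed_of_closure_subset fun g hg a => ?_
  rw [Metric.tendsto_nhds]
  intro ε hε
  obtain ⟨f, hf, hfg⟩ := Metric.mem_closure_iff.1 hg (ε / (4 * (‖e a‖ + 1))) (by positivity)
  filter_upwards [Metric.tendsto_nhds.1 (hf a) (ε / 2) (by positivity)] with n hn
  rw [dist_zero_right] at hn ⊢
  have h3 : ‖g n - f n‖ ≤ ε / (4 * (‖e a‖ + 1)) := by
    rw [← dist_eq_norm]; exact (BoundedContinuousFunction.dist_coe_le_dist n).trans hfg.le
  have h4 : ε / (4 * (‖e a‖ + 1)) * ‖e a‖ ≤ ε / 4 := by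
    rw [div_mul_eq_mul_div, div_le_div_iff₀ (by positivity) (by norm_num)]
    nlinarith [norm_nonneg (e a)]
  have he : g n * e a - e a * g n =
      (g n - f n) * e a - e a * (g n - f n) + (f n * e a - e a * f n) := by noncomm_ring
  rw [he]
  refine lt_of_le_of_lt ((norm_add_le _ _).trans (add_le_add ((norm_sub_le _ _).trans
    (add_le_add (norm_mul_le _ _) (norm_mul_le _ _))) le_rfl)) ?_
  nlinarith [mul_le_mul_of_nonneg_right h3 (norm_nonneg (e a))]

noncomputable instance relCentralCStar : CStarAlgebra (relCentral e w) :=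
  StarSubalgebra.cstarAlgebra _ (h_closed := isClosed_relCentral e w)

/-- The ideal of central sequences annihilating the range of `e`. -/
def relAnn : Ideal (relCentral e w) where
  carrier := {f | ∀ a, Tendsto (fun n => (f : ℕ →ᵇ C) n * e a) (w : Filter ℕ) (𝓝 0)}
  add_mem' {f g} hf hg a := by simpa [add_mul] using (hf a).add (hg a)
  zero_mem' a := by simp
  smul_mem' c f hf a := by
    refine (tendsto_bdd_mul w (c : ℕ →ᵇ C) (hf a)).congr fun n => ?_
    simp [mul_assoc]

theorem mem_relAnn {f : relCentral e w} :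
    f ∈ relAnn e w ↔ ∀ a, Tendsto (fun n => (f : ℕ →ᵇ C) n * e a) (w : Filter ℕ) (𝓝 0) := Iff.rfl

instance : (relAnn e w).IsTwoSided where
  mul_mem_of_left {f} c hf := fun a => by
    have h1 := tendsto_mul_bdd w (c : ℕ →ᵇ C) (hf a)
    have h2 := tendsto_bdd_mul w (f : ℕ →ᵇ C) (c.2 a)
    have h := h1.add h2
    simp only [add_zero] at h
    refine h.congr fun n => ?_
    simp [mul_sub, mul_assoc]

theorem isClosed_relAnn : IsClosed (relAnn e w : Set (relCentral e w)) := by
  refine isClosed_of_closure_subset fun g hg a => ?_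
  rw [Metric.tendsto_nhds]
  intro ε hε
  obtain ⟨f, hf, hfg⟩ := Metric.mem_closure_iff.1 hg (ε / (4 * (‖e a‖ + 1))) (by positivity)
  rw [Subtype.dist_eq] at hfg
  filter_upwards [Metric.tendsto_nhds.1 (hf a) (ε / 2) (by positivity)] with n hn
  rw [dist_zero_right] at hn ⊢
  have h3 : ‖(g : ℕ →ᵇ C) n - (f : ℕ →ᵇ C) n‖ ≤ ε / (4 * (‖e a‖ + 1)) := by
    rw [← dist_eq_norm]; exact (BoundedContinuousFunction.dist_coe_le_dist n).trans hfg.le
  have h4 : ε / (4 * (‖e a‖ + 1)) * ‖e a‖ ≤ ε / 4 := by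
    rw [div_mul_eq_mul_div, div_le_div_iff₀ (by positivity) (by norm_num)]
    nlinarith [norm_nonneg (e a)]
  have he : (g : ℕ →ᵇ C) n * e a =
      ((g : ℕ →ᵇ C) n - (f : ℕ →ᵇ C) n) * e a + (f : ℕ →ᵇ C) n * e a := by noncomm_ring
  rw [he]
  refine lt_of_le_of_lt ((norm_add_le _ _).trans (add_le_add (norm_mul_le _ _) le_rfl)) ?_
  nlinarith [mul_le_mul_of_nonneg_right h3 (norm_nonneg (e a))]

theorem star_mem_relAnn {f : relCentral e w} (hf : f ∈ relAnn e w) : star f ∈ relAnn e w := by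
  intro a
  have h2 := ((hf (star a)).sub (f.2 (star a))).star
  simp only [sub_zero, star_zero] at h2
  refine h2.congr fun n => ?_
  simp [map_star]

instance : GoodIdeal (relAnn e w) :=
  Rel.goodIdeal_of_closed (isClosed_relAnn e w) fun _ hf => star_mem_relAnn e w hf

/-- Central sequences modulo annihilating ones. -/
abbrev RelMod : Type := relCentral e w ⧸ relAnn e w

/-- The quotient map. -/
noncomputable def relMk : relCentral e w →⋆ₐ[ℂ] RelMod e w := quotHom (relAnn e w)

theorem relMk_surjective : Function.Surjective (relMk e w) := Ideal.Quotient.mk_surjective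

theorem relMk_eq_zero {f : relCentral e w} :
    relMk e w f = 0 ↔ ∀ a, Tendsto (fun n => (f : ℕ →ᵇ C) n * e a) (w : Filter ℕ) (𝓝 0) := by
  rw [relMk, quotHom_apply, Ideal.Quotient.eq_zero_iff_mem, mem_relAnn]

theorem continuous_relMk : Continuous (relMk e w) :=
  Vale.Agent.P101.Bridge.continuous_starAlgHom (relMk e w)

theorem exists_rel_lift (x : RelMod e w) {δ : ℝ} (hδ : 0 < δ) :
    ∃ g, relMk e w g = x ∧ ‖g‖ < ‖x‖ + δ :=
  Submodule.Quotient.norm_mk_lt x hδ

theorem eventually_mul_le {f : relCentral e w} {r : ℝ} (h : ‖relMk e w f‖ ≤ r) (a : A) {δ : ℝ}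
    (hδ : 0 < δ) : ∀ᶠ n in (w : Filter ℕ), ‖(f : ℕ →ᵇ C) n * e a‖ ≤ r * ‖e a‖ + δ := by
  obtain ⟨g, hg, hgn⟩ := exists_rel_lift e w (relMk e w f)
    (show (0 : ℝ) < δ / (2 * (‖e a‖ + 1)) by positivity)
  have hz := (relMk_eq_zero e w (f := g - f)).1 (by rw [map_sub, hg, sub_self])
  filter_upwards [Metric.tendsto_nhds.1 (hz a) (δ / 2) (by positivity)] with n hn
  rw [dist_zero_right] at hn
  have h3 : ‖(g : ℕ →ᵇ C) n‖ ≤ r + δ / (2 * (‖e a‖ + 1)) :=
    ((g : ℕ →ᵇ C).norm_coe_le_norm n).trans (hgn.le.trans (by linarith))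
  have h4 : δ / (2 * (‖e a‖ + 1)) * ‖e a‖ ≤ δ / 2 := by
    rw [div_mul_eq_mul_div, div_le_div_iff₀ (by positivity) (by norm_num)]
    nlinarith [norm_nonneg (e a)]
  have he : (f : ℕ →ᵇ C) n * e a =
      (g : ℕ →ᵇ C) n * e a - ((g - f : relCentral e w) : ℕ →ᵇ C) n * e a := by
    simp [sub_mul]
  rw [he]
  refine (norm_sub_le _ _).trans ?_
  have h5 := (norm_mul_le ((g : ℕ →ᵇ C) n) (e a)).trans
    (mul_le_mul_of_nonneg_right h3 (norm_nonneg (e a)))
  linarith

/-- A unitary close to one lifts along a quotient map to a unitary. -/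
theorem exists_unitary_lift {E F : Type} [CStarAlgebra E] [CStarAlgebra F] (π : E →⋆ₐ[ℂ] F)
    (hπ : Function.Surjective π) {W : F} (hW : W ∈ unitary F) (h1 : ‖W - 1‖ < 2) :
    ∃ u ∈ unitary E, π u = W := by
  let Wu : unitary F := ⟨W, hW⟩
  obtain ⟨H, hH⟩ := hπ (Unitary.argSelfAdjoint Wu : F)
  set K : E := (2 : ℂ)⁻¹ • (H + star H)
  have hKs : IsSelfAdjoint K := by
    show star K = K
    simp only [K, star_smul, star_add, star_star, star_inv₀, star_ofNat, add_comm]
  have hπK : π K = (Unitary.argSelfAdjoint Wu : F) := by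
    simp only [K, map_smul, map_add, map_star, hH]
    rw [(Unitary.argSelfAdjoint Wu).2.star_eq, ← two_smul ℂ, smul_smul]
    norm_num
  refine ⟨(selfAdjoint.expUnitary ⟨K, hKs⟩ : E), (selfAdjoint.expUnitary ⟨K, hKs⟩).2, ?_⟩
  let : NormedAlgebra ℚ E := .restrictScalars ℚ ℂ E
  let : NormedAlgebra ℚ F := .restrictScalars ℚ ℂ F
  rw [selfAdjoint.expUnitary_coe,
    NormedSpace.map_exp π (Vale.Agent.P101.Bridge.continuous_starAlgHom π), map_smul, hπK]
  exact congrArg Subtype.val (expUnitary_argSelfAdjoint (u := Wu) h1)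

end Vale.Agent.P095.Bridge
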