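import Vale.Agent.P095.Bridge.Pins

/-!
P095 bridge: multipliers of a C*-algebra acting on its elements, and automorphisms extended to
multipliers.
-/

namespace Vale.Agent.P095.Bridge.Mult

open Filter
open scoped Topology MultiplierAlgebra

variable {B : Type} [NonUnitalCStarAlgebra B]

/-- The inclusion into the multipliers. -/
noncomputable abbrev inM (b : B) : 𝓜(ℂ, B) := DoubleCentralizer.coeHom b

theorem eq_of_mul_left {x y : B} (h : ∀ z, z * x = z * y) : x = y := by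
  have h1 : star (x - y) * (x - y) = 0 := by rw [mul_sub, h, sub_self]
  exact sub_eq_zero.1 ((CStarRing.star_mul_self_eq_zero_iff _).1 h1)

theorem fst_mul (x : 𝓜(ℂ, B)) (b c : B) : x.fst (b * c) = x.fst b * c := by
  refine eq_of_mul_left fun z => ?_
  rw [← x.central, ← mul_assoc, ← mul_assoc, x.central]

theorem snd_mul (x : 𝓜(ℂ, B)) (b c : B) : x.snd (b * c) = b * x.snd c := by
  have h : ∀ z, x.snd (b * c) * z = (b * x.snd c) * z := fun z => by
    rw [x.central, mul_assoc, mul_assoc, x.central]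
  have h1 := eq_of_mul_left (x := star (x.snd (b * c))) (y := star (b * x.snd c)) fun z => by
    rw [← star_star z, ← star_mul, ← star_mul, h]
  simpa using congrArg star h1

theorem ext_fst {x y : 𝓜(ℂ, B)} (h : ∀ b, x.fst b = y.fst b) : x = y := by
  refine DoubleCentralizer.ext _ _ _ _ (Prod.ext (ContinuousLinearMap.ext h) ?_)
  refine ContinuousLinearMap.ext fun b => ?_
  have h1 := eq_of_mul_left (x := star (x.snd b)) (y := star (y.snd b)) fun z => by
    rw [← star_star z, ← star_mul, ← star_mul, x.central, y.central, h]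
  simpa using congrArg star h1

theorem mul_inM (x : 𝓜(ℂ, B)) (b : B) : x * inM b = inM (x.fst b) :=
  ext_fst fun c => fst_mul x b c

theorem inM_mul (b : B) (x : 𝓜(ℂ, B)) : inM b * x = inM (x.snd b) :=
  ext_fst fun c => (x.central b c).symm

theorem mul_fst_apply (x y : 𝓜(ℂ, B)) (b : B) : (x * y).fst b = x.fst (y.fst b) := rfl

theorem norm_inM (b : B) : ‖inM b‖ = ‖b‖ := by
  rw [← DoubleCentralizer.norm_fst]
  exact ContinuousLinearMap.opNorm_mul_apply ℂ B b

theorem inM_injective : Function.Injective (inM : B → 𝓜(ℂ, B)) := fun a b h => by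
  have : inM (a - b) = 0 := by rw [inM, map_sub, ← inM, ← inM, h, sub_self]
  rw [← sub_eq_zero, ← norm_eq_zero, ← norm_inM, this, norm_zero]

theorem norm_fst_le (x : 𝓜(ℂ, B)) (b : B) : ‖x.fst b‖ ≤ ‖x‖ * ‖b‖ :=
  (x.fst.le_opNorm b).trans_eq (by rw [DoubleCentralizer.norm_fst])

theorem norm_snd_le (x : 𝓜(ℂ, B)) (b : B) : ‖x.snd b‖ ≤ ‖x‖ * ‖b‖ :=
  (x.snd.le_opNorm b).trans_eq (by rw [DoubleCentralizer.norm_snd])

theorem norm_le_one {u : 𝓜(ℂ, B)} (hu : u ∈ unitary 𝓜(ℂ, B)) : ‖u‖ ≤ 1 := by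
  rcases subsingleton_or_nontrivial 𝓜(ℂ, B) with h | h
  · simp [Subsingleton.elim u 0]
  · exact (CStarRing.norm_of_mem_unitary hu).le

/-! ### Automorphisms -/

/-- An automorphism as a continuous linear map. -/
noncomputable def autL (e : B ≃⋆ₐ[ℂ] B) : B →L[ℂ] B :=
  LinearMap.mkContinuous
    { toFun := e, map_add' := map_add e, map_smul' := fun c x => map_smul e c x } 1 fun x => by
      rw [one_mul]; exact NonUnitalStarAlgHom.norm_apply_le (e : B →⋆ₙₐ[ℂ] B) x

theorem autL_apply (e : B ≃⋆ₐ[ℂ] B) (x : B) : autL e x = e x := rfl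

/-- An automorphism extended to the multipliers. -/
noncomputable def bar (e : B ≃⋆ₐ[ℂ] B) (x : 𝓜(ℂ, B)) : 𝓜(ℂ, B) where
  fst := (autL e).comp (x.fst.comp (autL e.symm))
  snd := (autL e).comp (x.snd.comp (autL e.symm))
  central a b := by
    show e (x.snd (e.symm a)) * b = a * e (x.fst (e.symm b))
    conv_lhs => rw [← e.apply_symm_apply b, ← map_mul, x.central]
    rw [map_mul, e.apply_symm_apply]

theorem bar_fst (e : B ≃⋆ₐ[ℂ] B) (x : 𝓜(ℂ, B)) (b : B) :
    (bar e x).fst b = e (x.fst (e.symm b)) := rfl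

theorem bar_one (e : B ≃⋆ₐ[ℂ] B) : bar e 1 = 1 :=
  ext_fst fun b => e.apply_symm_apply b

theorem bar_mul (e : B ≃⋆ₐ[ℂ] B) (x y : 𝓜(ℂ, B)) : bar e (x * y) = bar e x * bar e y :=
  ext_fst fun b => by simp [bar_fst]

theorem bar_star (e : B ≃⋆ₐ[ℂ] B) (x : 𝓜(ℂ, B)) : bar e (star x) = star (bar e x) :=
  ext_fst fun b => by
    rw [bar_fst, DoubleCentralizer.star_fst, DoubleCentralizer.star_fst, map_star, ← map_star e.symm]
    rfl

theorem bar_inM (e : B ≃⋆ₐ[ℂ] B) (b : B) : bar e (inM b) = inM (e b) :=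
  ext_fst fun c => by
    rw [bar_fst]
    show e (b * e.symm c) = e b * c
    rw [map_mul, e.apply_symm_apply]

theorem bar_unitary (e : B ≃⋆ₐ[ℂ] B) {u : 𝓜(ℂ, B)} (hu : u ∈ unitary 𝓜(ℂ, B)) :
    bar e u ∈ unitary 𝓜(ℂ, B) := by
  rw [Unitary.mem_iff, ← bar_star, ← bar_mul, ← bar_mul, Unitary.star_mul_self_of_mem hu,
    Unitary.mul_star_self_of_mem hu, bar_one]
  exact ⟨rfl, rfl⟩

/-! ### Pointwise limits -/

theorem tendsto_fst {x : ℕ → 𝓜(ℂ, B)} {X : 𝓜(ℂ, B)} {y : ℕ → B} {Y : B} (hx : ∀ n, ‖x n‖ ≤ 1)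
    (hX : ∀ b, Tendsto (fun n => (x n).fst b) atTop (𝓝 (X.fst b)))
    (hy : Tendsto y atTop (𝓝 Y)) :
    Tendsto (fun n => (x n).fst (y n)) atTop (𝓝 (X.fst Y)) := by
  have h1 : Tendsto (fun n => (x n).fst (y n - Y)) atTop (𝓝 0) :=
    squeeze_zero_norm (fun n => (norm_fst_le _ _).trans
      ((mul_le_mul_of_nonneg_right (hx n) (norm_nonneg _)).trans_eq (one_mul _)))
      (tendsto_iff_norm_sub_tendsto_zero.1 hy)
  simpa using h1.add (hX Y)

theorem tendsto_snd {x : ℕ → 𝓜(ℂ, B)} {X : 𝓜(ℂ, B)} {y : ℕ → B} {Y : B} (hx : ∀ n, ‖x n‖ ≤ 1)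
    (hX : ∀ b, Tendsto (fun n => (x n).snd b) atTop (𝓝 (X.snd b)))
    (hy : Tendsto y atTop (𝓝 Y)) :
    Tendsto (fun n => (x n).snd (y n)) atTop (𝓝 (X.snd Y)) := by
  have h1 : Tendsto (fun n => (x n).snd (y n - Y)) atTop (𝓝 0) :=
    squeeze_zero_norm (fun n => (norm_snd_le _ _).trans
      ((mul_le_mul_of_nonneg_right (hx n) (norm_nonneg _)).trans_eq (one_mul _)))
      (tendsto_iff_norm_sub_tendsto_zero.1 hy)
  simpa using h1.add (hX Y)

/-- A strict limit of a bounded sequence that converges on a dense set. -/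
theorem exists_limit {x : ℕ → 𝓜(ℂ, B)} (hx : ∀ n, ‖x n‖ ≤ 1) {S : Set B} (hS : Dense S)
    (hf : ∀ b ∈ S, CauchySeq fun n => (x n).fst b)
    (hs : ∀ b ∈ S, CauchySeq fun n => (x n).snd b) :
    ∃ X : 𝓜(ℂ, B), (∀ b, Tendsto (fun n => (x n).fst b) atTop (𝓝 (X.fst b))) ∧
      ∀ b, Tendsto (fun n => (x n).snd b) atTop (𝓝 (X.snd b)) := by
  have ext : ∀ L : ℕ → B →L[ℂ] B, (∀ n b, ‖L n b‖ ≤ ‖b‖) →
      (∀ b ∈ S, CauchySeq fun n => L n b) →
      ∃ T : B →L[ℂ] B, ∀ b, Tendsto (fun n => L n b) atTop (𝓝 (T b)) := by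
    intro L hL hc
    have hall : ∀ b, CauchySeq fun n => L n b := by
      intro b
      rw [Metric.cauchySeq_iff]
      intro ε hε
      obtain ⟨c, hc', hbc⟩ := Metric.mem_closure_iff.1 (hS b) (ε / 3) (by positivity)
      obtain ⟨N, hN⟩ := Metric.cauchySeq_iff.1 (hc c hc') (ε / 3) (by positivity)
      refine ⟨N, fun m hm n hn => ?_⟩
      have h1 : ∀ k, dist (L k b) (L k c) ≤ dist b c := fun k => by
        rw [dist_eq_norm, dist_eq_norm, ← map_sub]; exact hL k _
      linarith [dist_triangle4 (L m b) (L m c) (L n c) (L n b), h1 m, h1 n,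
        dist_comm (L n b) (L n c), hN m hm n hn]
    choose T hT using fun b => cauchySeq_tendsto_of_complete (hall b)
    let Tl : B →ₗ[ℂ] B :=
      { toFun := T
        map_add' := fun a b => tendsto_nhds_unique (hT (a + b))
          (by simpa only [map_add] using (hT a).add (hT b))
        map_smul' := fun c a => tendsto_nhds_unique (hT (c • a))
          (by simpa only [map_smul, RingHom.id_apply] using (hT a).const_smul c) }
    exact ⟨Tl.mkContinuous 1 fun b => le_of_tendsto (hT b).norm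
      (Eventually.of_forall fun n => (hL n b).trans_eq (one_mul _).symm), hT⟩
  obtain ⟨L, hL⟩ := ext (fun n => (x n).fst) (fun n b => (norm_fst_le _ _).trans
    ((mul_le_mul_of_nonneg_right (hx n) (norm_nonneg _)).trans_eq (one_mul _))) hf
  obtain ⟨R, hR⟩ := ext (fun n => (x n).snd) (fun n b => (norm_snd_le _ _).trans
    ((mul_le_mul_of_nonneg_right (hx n) (norm_nonneg _)).trans_eq (one_mul _))) hs
  exact ⟨⟨(L, R), fun a b => tendsto_nhds_unique ((hR a).mul_const b)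
    (((hL b).const_mul a).congr fun n => ((x n).central a b).symm)⟩, hL, hR⟩

end Vale.Agent.P095.Bridge.Mult
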