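import Vale.Agent.P101.Bridge.Stated
import Vale.Agent.P095.W.Statement
import Vale.Agent.P095.Tracial.Foelner
import Mathlib.Analysis.CStarAlgebra.Multiplier

/-!
P095 bridge: the definitions used by the statement of equivariant Jiang-Su stability.
-/

namespace Vale.Agent.P095.Bridge

open scoped MultiplierAlgebra

/-- The *-homomorphisms of possibly nonunital algebras. -/
abbrev NUHom (A B : Type) [NonUnitalCStarAlgebra A] [NonUnitalCStarAlgebra B] : Type :=
  A →⋆ₙₐ[ℂ] B

/-- The unital *-homomorphisms into the multiplier algebra. -/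
abbrev MultHom (D B : Type) [CStarAlgebra D] [NonUnitalCStarAlgebra B] : Type :=
  D →⋆ₐ[ℂ] 𝓜(ℂ, B)

/-- The actions of `G` on `A` by *-automorphisms. -/
abbrev Action (G A : Type) [Group G] [NonUnitalCStarAlgebra A] : Type :=
  G →* (A ≃⋆ₐ[ℂ] A)

section Tensor

variable {A D B : Type} [NonUnitalCStarAlgebra A] [CStarAlgebra D] [NonUnitalCStarAlgebra B]

/-- The elementary tensor of `a` and `d`: the multiplier of `d` applied to the image of `a`. -/
noncomputable def elem (ιA : NUHom A B) (ιD : MultHom D B) (a : A) (d : D) : B :=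
  (ιD d).fst (ιA a)

/-- `B` is a C*-tensor product of a possibly nonunital `A` and a unital `D`: a copy of `A` in `B`
commuting with a copy of `D` in the multipliers of `B`, dense elementary tensors, injective on the
algebraic tensor product. -/
structure IsTensor (ιA : NUHom A B) (ιD : MultHom D B) : Prop where
  comm : ∀ a d, Commute (DoubleCentralizer.coeHom (ιA a)) (ιD d)
  dense : Dense (Submodule.span ℂ (Set.range fun z : A × D => elem ιA ιD z.1 z.2) : Set B)
  injective : ∀ (n : ℕ) (a : Fin n → A) (d : Fin n → D), LinearIndependent ℂ d →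
    ∑ i, elem ιA ιD (a i) (d i) = 0 → a = 0

variable {G : Type} [Group G]

/-- `β` is the tensor product of `α` with the trivial action. -/
def IsTensorAction (ιA : NUHom A B) (ιD : MultHom D B) (α : Action G A)
    (β : Action G B) : Prop :=
  ∀ g a d, β g (elem ιA ιD a d) = elem ιA ιD (α g a) d

/-- Cocycle conjugacy: an isomorphism and a unitary multiplier cocycle for `β`; the cocycle identity
is read on the elements of `B`. -/
def CocycleConjugate (α : Action G A) (β : Action G B) : Prop :=
  ∃ (Φ : A ≃⋆ₐ[ℂ] B) (u : G → 𝓜(ℂ, B)), (∀ g, u g ∈ unitary 𝓜(ℂ, B)) ∧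
    (∀ g h b, (u (g * h)).fst b = (u g).fst (β g ((u h).fst ((β g).symm b)))) ∧
    ∀ g a, DoubleCentralizer.coeHom (Φ (α g a))
      = u g * DoubleCentralizer.coeHom (β g (Φ a)) * star (u g)

end Tensor

/-- `A` is isomorphic to a C*-tensor product of itself and `D`. -/
def IsStable (A D : Type) [NonUnitalCStarAlgebra A] [CStarAlgebra D] : Prop :=
  ∃ (B : Type) (_ : NonUnitalCStarAlgebra B) (ιA : NUHom A B) (ιD : MultHom D B),
    IsTensor ιA ιD ∧ Nonempty (A ≃⋆ₐ[ℂ] B)

section Action

variable {A : Type} [NonUnitalCStarAlgebra A] {G : Type} [Group G]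

/-- Some C*-tensor product of `A` and `D` carries `α` tensor the trivial action. -/
def HasTensorAction (α : Action G A) (D : Type) [CStarAlgebra D] : Prop :=
  ∃ (B : Type) (_ : NonUnitalCStarAlgebra B) (ιA : NUHom A B) (ιD : MultHom D B)
    (β : Action G B), IsTensor ιA ιD ∧ IsTensorAction ιA ιD α β

/-- `α` is cocycle conjugate to its tensor product with the trivial action on `D`, whatever the
C*-tensor product. -/
def IsEquivariantlyStable (α : Action G A) (D : Type) [CStarAlgebra D] : Prop :=
  ∀ (B : Type) [NonUnitalCStarAlgebra B] (ιA : NUHom A B) (ιD : MultHom D B)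
    (β : Action G B), IsTensor ιA ιD → IsTensorAction ιA ιD α β → CocycleConjugate α β

end Action

end Vale.Agent.P095.Bridge
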