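import Vale.Agent.P095.W.DropNDef
import Vale.Agent.P095.W.Defs
import Vale.Agent.P095.Bridge.Stated
import Vale.Agent.P101.Bridge.Pins
import Mathlib.Analysis.CStarAlgebra.Multiplier

/-!
P095 bridge: from fixed maps of the dimension drop algebras to cocycle conjugacy of an action with
its stabilisation by the Jiang-Su algebra. Statement and blocks.
-/

namespace Vale.Agent.P095.Bridge

open Filter Vale.Agent.P101 Vale.Agent.P101.Bridge Vale.Agent.P101.DropN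
open scoped Topology BoundedContinuousFunction Matrix Matrix.Norms.L2Operator Kronecker
  unitInterval MultiplierAlgebra

/-- The target: Szabo's Conjecture A. -/
def TargetPin : Prop :=
  ∃ (D : Type) (_ : CStarAlgebra D), IsJiangSu D ∧
    ∀ (A : Type) [NonUnitalCStarAlgebra A] [TopologicalSpace.SeparableSpace A],
    W.IsTopSimple A → W.IsNuclearA A →
    (∃ (B : Type) (_ : NonUnitalCStarAlgebra B) (ιA : A →⋆ₙₐ[ℂ] B) (ιD : D →⋆ₐ[ℂ] 𝓜(ℂ, B)),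
      IsTensor ιA ιD ∧ Nonempty (A ≃⋆ₐ[ℂ] B)) →
    ∀ (G : Type) [Group G] [Countable G], Tracial.Foelner G → ∀ α : G →* (A ≃⋆ₐ[ℂ] A),
      (∃ (B : Type) (_ : NonUnitalCStarAlgebra B) (ιA : A →⋆ₙₐ[ℂ] B) (ιD : D →⋆ₐ[ℂ] 𝓜(ℂ, B))
        (β : G →* (B ≃⋆ₐ[ℂ] B)), IsTensor ιA ιD ∧ IsTensorAction ιA ιD α β) ∧
      ∀ (B : Type) [NonUnitalCStarAlgebra B] (ιA : A →⋆ₙₐ[ℂ] B) (ιD : D →⋆ₐ[ℂ] 𝓜(ℂ, B))
        (β : G →* (B ≃⋆ₐ[ℂ] B)), IsTensor ιA ιD → IsTensorAction ιA ιD α β →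
        CocycleConjugate α β

/-! ### Blocks -/

/-- One step of the equivariant intertwining: almost central unitary multipliers, almost fixed on
finite sets, moving finite sets into the copy of `A`. -/
def HasUnitaries {A B G : Type} [NonUnitalCStarAlgebra A] [NonUnitalCStarAlgebra B] [Group G]
    (ιA : A →⋆ₙₐ[ℂ] B) (β : G →* (B ≃⋆ₐ[ℂ] B)) : Prop :=
  ∀ (K : Finset A) (F : Finset B) (L : Finset G) (H : Finset B) (ε : ℝ), 0 < ε →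
    ∃ u ∈ unitary 𝓜(ℂ, B),
      (∀ a ∈ K, ‖u * DoubleCentralizer.coeHom (ιA a)
        - DoubleCentralizer.coeHom (ιA a) * u‖ ≤ ε) ∧
      (∀ b ∈ F, ∃ a, ‖(star u).fst (u.snd b) - ιA a‖ ≤ ε) ∧
      ∀ g ∈ L, ∀ h ∈ H, ‖u.fst (β g ((star u).fst ((β g).symm h))) - h‖ ≤ ε

/-- H2: the half flip is joined to one by small steps inside the square algebra. -/
def HalfFlipStepsPin : Prop :=
  ∀ (P Q : ℕ) (F : Finset (ZPair P Q)) (U : C(I, Fib P Q)) (ε : ℝ), 0 < ε →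
    (∀ t, U t ∈ unitary (Fib P Q)) → U 0 = 1 →
    (∀ x ∈ F, ∀ s : I, ‖(x : C(I, Fib P Q)) s
      - U s * (x : C(I, Fib P Q)) 0 * star (U s)‖ ≤ ε) →
    ∃ (N : ℕ) (v : ℕ → C(I × I, Fib2 P Q)), v 0 = 1 ∧
      (∀ i, v i ∈ squareSet P Q ∧ (∀ z, v i z ∈ unitary (Fib2 P Q)) ∧
        ∀ z, ‖v (i + 1) z - v i z‖ ≤ 1) ∧
      ∀ x ∈ F, ∀ s t : I, ‖v N (s, t) * ((x : C(I, Fib P Q)) s ⊗ₖ (1 : Fib P Q))
        - ((1 : Fib P Q) ⊗ₖ (x : C(I, Fib P Q)) t) * v N (s, t)‖ ≤ 6 * ε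

/-- U: fixed maps of the dimension drop algebras give the unitaries. -/
def UnitariesPin : Prop :=
  ∀ (S : Chain),
    (∀ k j, Contracts (S.comp k j) ((1 / 2) ^ j) ∧ Reaches (S.comp k j) ((1 / 2) ^ j)) →
  ∀ (D : Type) [CStarAlgebra D] (ι : ∀ k, ZPair (S.p k) (S.q k) →⋆ₐ[ℂ] D), IsLimit S ι →
  ∀ (A : Type) [NonUnitalCStarAlgebra A] [TopologicalSpace.SeparableSpace A] (w : Ultrafilter ℕ),
    (w : Filter ℕ) ≤ cofinite → ∀ (G : Type) [Group G] [Countable G] (α : G →* (A ≃⋆ₐ[ℂ] A)),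
    (∀ n, W.HasFixedDropN (w : Filter ℕ) (fun g => α g) n) →
  ∀ (B : Type) [NonUnitalCStarAlgebra B] (ιA : A →⋆ₙₐ[ℂ] B) (ιD : D →⋆ₐ[ℂ] 𝓜(ℂ, B))
    (β : G →* (B ≃⋆ₐ[ℂ] B)), IsTensor ιA ιD → IsTensorAction ιA ιD α β → HasUnitaries ιA β

/-- I: equivariant one-sided intertwining. -/
def CocyclePin : Prop :=
  ∀ (A B : Type) [NonUnitalCStarAlgebra A] [NonUnitalCStarAlgebra B]
    [TopologicalSpace.SeparableSpace A] [TopologicalSpace.SeparableSpace B]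
    (G : Type) [Group G] [Countable G] (α : G →* (A ≃⋆ₐ[ℂ] A)) (β : G →* (B ≃⋆ₐ[ℂ] B))
    (ιA : A →⋆ₙₐ[ℂ] B), Function.Injective ιA → (∀ g a, β g (ιA a) = ιA (α g a)) →
    HasUnitaries ιA β → CocycleConjugate α β

/-- T: the limit of a chain, with tensor products and tensor actions for every algebra. -/
def TensorNUPin : Prop :=
  ∀ S : Chain, ∃ (D : Type) (_ : CStarAlgebra D) (ι : ∀ k, ZPair (S.p k) (S.q k) →⋆ₐ[ℂ] D),
    IsLimit S ι ∧ ∀ (A : Type) [NonUnitalCStarAlgebra A],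
      ∀ (G : Type) [Group G] (α : G →* (A ≃⋆ₐ[ℂ] A)),
        ∃ (B : Type) (_ : NonUnitalCStarAlgebra B) (ιA : A →⋆ₙₐ[ℂ] B)
          (ιD : D →⋆ₐ[ℂ] 𝓜(ℂ, B)) (β : G →* (B ≃⋆ₐ[ℂ] B)),
          IsTensor ιA ιD ∧ IsTensorAction ιA ιD α β

/-- The chain has almost central copies of Z(2,3). -/
def HasCentralCopies (S : Chain) : Prop :=
  ∀ (k : ℕ) (F : Finset (ZPair (S.p k) (S.q k))) (ε : ℝ), 0 < ε →
    ∃ (j : ℕ) (κ : ZPair 2 3 →⋆ₐ[ℂ] ZPair (S.p (k + j)) (S.q (k + j))),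
      ∀ x ∈ F, ∀ y : ZPair 2 3, ‖((κ y * S.comp k j x - S.comp k j x * κ y :
        ZPair (S.p (k + j)) (S.q (k + j))) : C(I, Fib (S.p (k + j)) (S.q (k + j))))‖
        ≤ ε * (‖(y : C(I, Fib 2 3))‖ + 1)

/-- C2: a chain as in the unital bridge, with almost central copies of Z(2,3). -/
def CentralChainPin : Prop :=
  ∃ S : Chain, (∀ k j,
      Contracts (S.comp k j) ((1 / 2) ^ j) ∧ Reaches (S.comp k j) ((1 / 2) ^ j)) ∧
    HasCentralCopies S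

/-- N: absorption excludes characters on the central sequences. -/
def StableNoCharPin : Prop :=
  ∀ (S : Chain), HasCentralCopies S →
  ∀ (D : Type) [CStarAlgebra D] (ι : ∀ k, ZPair (S.p k) (S.q k) →⋆ₐ[ℂ] D), IsLimit S ι →
  ∀ (A : Type) [NonUnitalCStarAlgebra A] [TopologicalSpace.SeparableSpace A] (w : Ultrafilter ℕ),
    (w : Filter ℕ) ≤ cofinite →
  ∀ (B : Type) [NonUnitalCStarAlgebra B] (ιA : A →⋆ₙₐ[ℂ] B) (ιD : D →⋆ₐ[ℂ] 𝓜(ℂ, B)),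
    IsTensor ιA ιD → Nonempty (A ≃⋆ₐ[ℂ] B) → W.NoChar A w

end Vale.Agent.P095.Bridge
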