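import Vale.Agent.P095.Bridge.MultiplierBasic
import Vale.Agent.P095.Rel.Unit
import Vale.Agent.P101.Bridge.Limit

/-!
P095 bridge, T: tensor products and tensor actions with the limit of a chain, for possibly
nonunital algebras, inside sequences of matrices over the unitization.
-/

namespace Vale.Agent.P095.Bridge

open Filter Vale.Agent.P101 Vale.Agent.P101.Bridge Vale.Agent.P101.DropN
open scoped Topology ENNReal Matrix Matrix.Norms.L2Operator Kronecker unitInterval MultiplierAlgebra

attribute [local instance] CStarAlgebra.spectralOrder CStarAlgebra.spectralOrderedRing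

namespace TensorNU

/-! ### Commuting copies inside a unital algebra -/

section Generic

variable {A D Q : Type} [NonUnitalCStarAlgebra A] [CStarAlgebra D] [CStarAlgebra Q]
  (f : A →⋆ₙₐ[ℂ] Q) (g : D →⋆ₐ[ℂ] Q)

/-- The span of the products. -/
noncomputable def prodSpan : Submodule ℂ Q :=
  Submodule.span ℂ (Set.range fun z : A × D => f z.1 * g z.2)

theorem prodSpan_mem (a : A) (d : D) : f a * g d ∈ prodSpan f g :=
  Submodule.subset_span ⟨(a, d), rfl⟩

variable (hc : ∀ a d, Commute (f a) (g d))

/-- The span of the products as a subalgebra. -/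
noncomputable def prodAlg : NonUnitalStarSubalgebra ℂ Q where
  carrier := prodSpan f g
  mul_mem' := by
    intro x y hx hy
    refine Submodule.span_induction₂ (p := fun x y _ _ => x * y ∈ prodSpan f g) ?_ ?_ ?_ ?_ ?_
      ?_ ?_ hx hy
    · rintro _ _ ⟨⟨a, d⟩, rfl⟩ ⟨⟨a', d'⟩, rfl⟩
      simp only
      rw [(hc a' d).symm.mul_mul_mul_comm, ← map_mul, ← map_mul]
      exact prodSpan_mem f g _ _
    · intro y _; simp
    · intro x _; simp
    · intro x y z _ _ _ h1 h2; rw [add_mul]; exact add_mem h1 h2
    · intro x y z _ _ _ h1 h2; rw [mul_add]; exact add_mem h1 h2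
    · intro r x y _ _ h1; rw [smul_mul_assoc]; exact Submodule.smul_mem _ r h1
    · intro r x y _ _ h1; rw [mul_smul_comm]; exact Submodule.smul_mem _ r h1
  add_mem' := Submodule.add_mem _
  zero_mem' := Submodule.zero_mem _
  smul_mem' r _ hx := Submodule.smul_mem _ r hx
  star_mem' := by
    intro x hx
    induction hx using Submodule.span_induction with
    | mem x hx =>
      obtain ⟨⟨a, d⟩, rfl⟩ := hx
      simp only
      rw [star_mul, ← map_star, ← map_star, ← (hc _ _).eq]
      exact prodSpan_mem f g _ _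
    | zero => simp
    | add x y _ _ h1 h2 => rw [star_add]; exact add_mem h1 h2
    | smul r x _ h1 => rw [star_smul]; exact Submodule.smul_mem _ _ h1

/-- The closed algebra of the products. -/
noncomputable abbrev prodClosure : NonUnitalStarSubalgebra ℂ Q :=
  (prodAlg f g hc).topologicalClosure

noncomputable instance prodCStar : NonUnitalCStarAlgebra (prodClosure f g hc) :=
  NonUnitalStarSubalgebra.nonUnitalCStarAlgebra _
    (h_closed := (prodAlg f g hc).isClosed_topologicalClosure)

theorem mem_prodClosure (a : A) (d : D) : f a * g d ∈ prodClosure f g hc :=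
  (prodAlg f g hc).le_topologicalClosure (prodSpan_mem f g a d)

include hc in
theorem mul_left_mem_span (d : D) {x : Q} (hx : x ∈ prodSpan f g) : g d * x ∈ prodSpan f g := by
  induction hx using Submodule.span_induction with
  | mem x hx =>
    obtain ⟨⟨a, e⟩, rfl⟩ := hx
    simp only
    rw [← mul_assoc, ← (hc a d).eq, mul_assoc, ← map_mul]
    exact prodSpan_mem f g _ _
  | zero => simp
  | add x y _ _ h1 h2 => rw [mul_add]; exact add_mem h1 h2
  | smul r x _ h1 => rw [mul_smul_comm]; exact Submodule.smul_mem _ _ h1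

theorem mul_right_mem_span (d : D) {x : Q} (hx : x ∈ prodSpan f g) : x * g d ∈ prodSpan f g := by
  induction hx using Submodule.span_induction with
  | mem x hx =>
    obtain ⟨⟨a, e⟩, rfl⟩ := hx
    simp only
    rw [mul_assoc, ← map_mul]
    exact prodSpan_mem f g _ _
  | zero => simp
  | add x y _ _ h1 h2 => rw [add_mul]; exact add_mem h1 h2
  | smul r x _ h1 => rw [smul_mul_assoc]; exact Submodule.smul_mem _ _ h1

theorem mul_left_mem (d : D) {x : Q} (hx : x ∈ prodClosure f g hc) :
    g d * x ∈ prodClosure f g hc :=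
  map_mem_closure (continuous_const_mul (g d)) hx fun _ hy => mul_left_mem_span f g hc d hy

theorem mul_right_mem (d : D) {x : Q} (hx : x ∈ prodClosure f g hc) :
    x * g d ∈ prodClosure f g hc :=
  map_mem_closure (f := fun y : Q => y * g d) (continuous_mul_const (g d)) hx fun _ hy =>
    mul_right_mem_span f g d hy

/-- The copy of `A`. -/
noncomputable def copyA : A →⋆ₙₐ[ℂ] prodClosure f g hc :=
  NonUnitalStarAlgHom.codRestrict f _ fun a => by
    have h := mem_prodClosure f g hc a 1
    rwa [map_one, mul_one] at h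

theorem copyA_val (a : A) : (copyA f g hc a : Q) = f a := rfl

/-- Left multiplication by an element of the copy of `D`. -/
noncomputable def leftMul (d : D) : prodClosure f g hc →L[ℂ] prodClosure f g hc :=
  LinearMap.mkContinuous
    { toFun := fun x => ⟨g d * x.1, mul_left_mem f g hc d x.2⟩
      map_add' := fun _ _ => Subtype.ext (mul_add _ _ _)
      map_smul' := fun c _ => Subtype.ext (mul_smul_comm c _ _) }
    ‖g d‖ fun x => norm_mul_le (g d) (x : Q)

/-- Right multiplication by an element of the copy of `D`. -/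
noncomputable def rightMul (d : D) : prodClosure f g hc →L[ℂ] prodClosure f g hc :=
  LinearMap.mkContinuous
    { toFun := fun x => ⟨x.1 * g d, mul_right_mem f g hc d x.2⟩
      map_add' := fun _ _ => Subtype.ext (add_mul _ _ _)
      map_smul' := fun c _ => Subtype.ext (smul_mul_assoc c _ _) }
    ‖g d‖ fun x => (norm_mul_le (x : Q) (g d)).trans_eq (mul_comm _ _)

/-- An element of the copy of `D` as a multiplier. -/
noncomputable def mult (d : D) : 𝓜(ℂ, prodClosure f g hc) where
  fst := leftMul f g hc d
  snd := rightMul f g hc d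
  central x y := Subtype.ext (mul_assoc (x : Q) (g d) (y : Q))

theorem mult_fst (d : D) (x : prodClosure f g hc) :
    ((mult f g hc d).fst x : Q) = g d * x := rfl

theorem mult_snd (d : D) (x : prodClosure f g hc) :
    ((mult f g hc d).snd x : Q) = x * g d := rfl

/-- The copy of `D` in the multipliers. -/
noncomputable def copyD : D →⋆ₐ[ℂ] 𝓜(ℂ, prodClosure f g hc) where
  toFun := mult f g hc
  map_one' := Mult.ext_fst fun x => Subtype.ext (by
    rw [mult_fst, map_one, one_mul, DoubleCentralizer.one_fst]
    rfl)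
  map_mul' d e := Mult.ext_fst fun x => Subtype.ext (by
    rw [Mult.mul_fst_apply, mult_fst, mult_fst, mult_fst, map_mul, mul_assoc])
  map_zero' := Mult.ext_fst fun x => Subtype.ext (by
    rw [mult_fst, map_zero, zero_mul, DoubleCentralizer.zero_fst]
    rfl)
  map_add' d e := Mult.ext_fst fun x => Subtype.ext (by
    rw [mult_fst, map_add, add_mul, DoubleCentralizer.add_fst]
    rfl)
  commutes' r := Mult.ext_fst fun x => Subtype.ext (by
    rw [mult_fst, AlgHomClass.commutes, ← Algebra.smul_def]
    rfl)
  map_star' d := Mult.ext_fst fun x => Subtype.ext (by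
    rw [mult_fst, DoubleCentralizer.star_fst, map_star]
    show _ = star ((star (x : Q)) * g d)
    rw [star_mul, star_star])

theorem elem_val (a : A) (d : D) :
    ((elem (copyA f g hc) (copyD f g hc) a d : prodClosure f g hc) : Q) = f a * g d :=
  (mult_fst f g hc d (copyA f g hc a)).trans (hc a d).eq.symm

theorem isTensor (hinj : ∀ (n : ℕ) (a : Fin n → A) (d : Fin n → D), LinearIndependent ℂ d →
      ∑ i, f (a i) * g (d i) = 0 → a = 0) :
    IsTensor (copyA f g hc) (copyD f g hc) where
  comm a d := Mult.ext_fst fun x => Subtype.ext (by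
    show f a * (g d * (x : Q)) = g d * (f a * (x : Q))
    rw [← mul_assoc, (hc a d).eq, mul_assoc])
  dense x := by
    rw [closure_subtype]
    have hx : (x : Q) ∈ closure (prodSpan f g : Set Q) := x.2
    refine closure_mono ?_ hx
    intro y hy
    let L : prodClosure f g hc →ₗ[ℂ] Q :=
      { toFun := Subtype.val, map_add' := fun _ _ => rfl, map_smul' := fun _ _ => rfl }
    have hle : prodSpan f g ≤ Submodule.map L (Submodule.span ℂ
        (Set.range fun z : A × D => elem (copyA f g hc) (copyD f g hc) z.1 z.2)) := by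
      refine Submodule.span_le.2 ?_
      rintro _ ⟨z, rfl⟩
      exact ⟨_, Submodule.subset_span ⟨z, rfl⟩, elem_val f g hc z.1 z.2⟩
    obtain ⟨w, hw, rfl⟩ := hle hy
    exact ⟨w, hw, rfl⟩
  injective n a d hd h := by
    refine hinj n a d hd ?_
    have h' := congrArg Subtype.val h
    rw [AddSubmonoidClass.coe_finsetSum] at h'
    simpa only [elem_val, ZeroMemClass.coe_zero] using h'

include hc in
/-- Homomorphisms agreeing on the products agree on their closure. -/
theorem eq_of_prod {Φ Ψ : Q →⋆ₐ[ℂ] Q} (h : ∀ a d, Φ (f a * g d) = Ψ (f a * g d)) {x : Q}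
    (hx : x ∈ prodClosure f g hc) : Φ x = Ψ x := by
  have hs : Set.EqOn Φ Ψ (prodSpan f g : Set Q) := by
    intro y hy
    induction hy using Submodule.span_induction with
    | mem y hy =>
      obtain ⟨⟨a, d⟩, rfl⟩ := hy
      exact h a d
    | zero => rw [map_zero, map_zero]
    | add y z _ _ h1 h2 => rw [map_add, map_add, h1, h2]
    | smul r y _ h1 => rw [map_smul, map_smul, h1]
  exact hs.closure (map_continuous Φ) (map_continuous Ψ) hx

variable {G : Type} [Group G] (α : G →* (A ≃⋆ₐ[ℂ] A)) (Λ : G → (Q →⋆ₐ[ℂ] Q))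

theorem map_prodClosure (hΛ : ∀ h a d, Λ h (f a * g d) = f (α h a) * g d) (h : G) {x : Q}
    (hx : x ∈ prodClosure f g hc) : Λ h x ∈ prodClosure f g hc := by
  refine map_mem_closure (map_continuous (Λ h)) hx fun y hy => ?_
  show Λ h y ∈ prodSpan f g
  induction hy using Submodule.span_induction with
  | mem y hy =>
    obtain ⟨⟨a, d⟩, rfl⟩ := hy
    simp only
    rw [hΛ]
    exact prodSpan_mem f g _ _
  | zero => rw [map_zero]; exact zero_mem _
  | add y z _ _ h1 h2 => rw [map_add]; exact add_mem h1 h2
  | smul r y _ h1 => rw [map_smul]; exact Submodule.smul_mem _ _ h1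

variable (hΛ : ∀ h a d, Λ h (f a * g d) = f (α h a) * g d)

/-- The restriction of one automorphism. -/
noncomputable def actMap (h : G) : prodClosure f g hc →⋆ₙₐ[ℂ] prodClosure f g hc where
  toFun x := ⟨Λ h x, map_prodClosure f g hc α Λ hΛ h x.2⟩
  map_smul' r x := Subtype.ext (map_smul (Λ h) r (x : Q))
  map_zero' := Subtype.ext (map_zero (Λ h))
  map_add' x y := Subtype.ext (map_add (Λ h) (x : Q) y)
  map_mul' x y := Subtype.ext (map_mul (Λ h) (x : Q) y)
  map_star' x := Subtype.ext (map_star (Λ h) (x : Q))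

theorem actMap_val (h : G) (x : prodClosure f g hc) :
    (actMap f g hc α Λ hΛ h x : Q) = Λ h x := rfl

theorem actMap_one (x : prodClosure f g hc) : actMap f g hc α Λ hΛ 1 x = x :=
  Subtype.ext (eq_of_prod f g hc (Φ := Λ 1) (Ψ := StarAlgHom.id ℂ Q) (fun a d => by
    rw [hΛ, map_one]; rfl) x.2)

theorem actMap_mul (h k : G) (x : prodClosure f g hc) :
    actMap f g hc α Λ hΛ (h * k) x = actMap f g hc α Λ hΛ h (actMap f g hc α Λ hΛ k x) :=
  Subtype.ext (eq_of_prod f g hc (Φ := Λ (h * k)) (Ψ := (Λ h).comp (Λ k)) (fun a d => by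
    rw [StarAlgHom.comp_apply, hΛ, hΛ, hΛ, map_mul]; rfl) x.2)

theorem actMap_bijective (h : G) : Function.Bijective (actMap f g hc α Λ hΛ h) :=
  Function.bijective_iff_has_inverse.2 ⟨actMap f g hc α Λ hΛ h⁻¹,
    fun x => by rw [← actMap_mul, inv_mul_cancel, actMap_one],
    fun x => by rw [← actMap_mul, mul_inv_cancel, actMap_one]⟩

/-- The action on the products. -/
noncomputable def act : G →* (prodClosure f g hc ≃⋆ₐ[ℂ] prodClosure f g hc) where
  toFun h := StarAlgEquiv.ofBijective (actMap f g hc α Λ hΛ h) (actMap_bijective f g hc α Λ hΛ h)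
  map_one' := StarAlgEquiv.ext fun x => actMap_one f g hc α Λ hΛ x
  map_mul' h k := StarAlgEquiv.ext fun x => actMap_mul f g hc α Λ hΛ h k x

theorem act_elem (h : G) (a : A) (d : D) :
    act f g hc α Λ hΛ h (elem (copyA f g hc) (copyD f g hc) a d)
      = elem (copyA f g hc) (copyD f g hc) (α h a) d :=
  Subtype.ext ((actMap_val f g hc α Λ hΛ h _).trans (by rw [elem_val, elem_val, hΛ]))

end Generic

/-! ### Automorphisms applied to the entries -/

section Entries

variable {U : Type} [CStarAlgebra U] {ι : Type} [Fintype ι] [DecidableEq ι]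

/-- A homomorphism applied to the entries. -/
noncomputable def entryHom (u : U →⋆ₐ[ℂ] U) : CStarMatrix ι ι U →⋆ₐ[ℂ] CStarMatrix ι ι U where
  toFun M := CStarMatrix.mapₙₐ (u : U →⋆ₙₐ[ℂ] U) M
  map_one' := by
    ext i j
    show u ((1 : CStarMatrix ι ι U) i j) = _
    rw [CStarMatrix.one_apply]
    split_ifs <;> simp
  map_mul' := map_mul _
  map_zero' := map_zero _
  map_add' := map_add _
  commutes' r := by
    ext i j
    show u ((algebraMap ℂ (CStarMatrix ι ι U) r) i j) = _
    rw [CStarMatrix.algebraMap_apply]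
    split_ifs <;> simp [AlgHomClass.commutes]
  map_star' := map_star _

theorem entryHom_apply (u : U →⋆ₐ[ℂ] U) (M : CStarMatrix ι ι U) (i j : ι) :
    entryHom u M i j = u (M i j) := rfl

theorem entryHom_diag (u : U →⋆ₐ[ℂ] U) (a : U) :
    entryHom u (diagMat U ι a) = diagMat U ι (u a) := by
  ext i j
  show u (Matrix.diagonal (fun _ => a) i j) = Matrix.diagonal (fun _ => u a) i j
  rw [Matrix.diagonal_apply, Matrix.diagonal_apply]
  split_ifs <;> simp

theorem entryHom_scalar (u : U →⋆ₐ[ℂ] U) (M : Matrix ι ι ℂ) :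
    entryHom u (scalarMat U ι M) = scalarMat U ι M := by
  ext i j
  rw [entryHom_apply, scalarMat_apply, AlgHomClass.commutes]

end Entries

section Stages

variable {U : Type} [CStarAlgebra U] (S : Chain) (u : U →⋆ₐ[ℂ] U)

/-- A homomorphism applied to the entries at a stage. -/
noncomputable def stageHom (n : ℕ) : S.Y U n →⋆ₐ[ℂ] S.Y U n where
  toFun F := S.toY U n ((⟨entryHom u,
    map_continuous (entryHom (ι := Fin (S.p n) × Fin (S.q n)) u)⟩ : C(_, _)).comp (S.ofY U n F))
  map_one' := S.extY U fun _ => map_one (entryHom u)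
  map_mul' _ _ := S.extY U fun _ => map_mul (entryHom u) _ _
  map_zero' := S.extY U fun _ => map_zero (entryHom u)
  map_add' _ _ := S.extY U fun _ => map_add (entryHom u) _ _
  commutes' r := S.extY U fun _ => AlgHomClass.commutes (entryHom u) r
  map_star' _ := S.extY U fun _ => map_star (entryHom u) _

theorem stageHom_apply (n : ℕ) (t : I) (F : S.Y U n) :
    S.evY U n t (stageHom S u n F) = entryHom u (S.evY U n t F) := rfl

variable [Nontrivial U]

/-- A homomorphism applied to the entries of sequences. -/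
noncomputable def seqHom : SeqQuot (S.Y U) →⋆ₐ[ℂ] SeqQuot (S.Y U) :=
  quotMap (X := S.Y U) (Y := S.Y U) (stageHom S u)

theorem seqHom_inA (a : U) : seqHom S u (S.inA U a) = S.inA U (u a) := by
  rw [S.inA_eq U, S.inA_eq U, seqHom, quotMap_cls]
  refine congrArg cls (lp.ext (funext fun m => S.extY U fun t => ?_))
  rw [seqMap_apply, stageHom_apply, S.seqA_apply U, S.seqA_apply U, entryHom_diag]

theorem seqHom_inD (d : S.limitSub) : seqHom S u (S.inD U d) = S.inD U d := by
  obtain ⟨g, hg⟩ := cls_surjective (d : SeqQuot S.X)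
  rw [S.inD_eq U d g hg, seqHom, quotMap_cls]
  refine congrArg cls (lp.ext (funext fun m => S.extY U fun t => ?_))
  rw [seqMap_apply, stageHom_apply, S.seqS_apply U, entryHom_scalar]

end Stages

section Assembly

variable (S : Chain) (A : Type) [NonUnitalCStarAlgebra A]

/-- The copy of `A` among the sequences over its unitization. -/
noncomputable def inN : A →⋆ₙₐ[ℂ] SeqQuot (S.Y (Unitization ℂ A)) :=
  (S.inA (Unitization ℂ A) : Unitization ℂ A →⋆ₙₐ[ℂ] SeqQuot (S.Y (Unitization ℂ A))).comp
    (Unitization.inrNonUnitalStarAlgHom ℂ A)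

theorem inN_apply (a : A) : inN S A a = S.inA (Unitization ℂ A) (a : Unitization ℂ A) := rfl

variable {G : Type} [Group G] (α : G →* (A ≃⋆ₐ[ℂ] A))

theorem seqHom_prod (h : G) (a : A) (d : S.limitSub) :
    seqHom S (unitMap (α h)) (inN S A a * S.inD (Unitization ℂ A) d)
      = inN S A (α h a) * S.inD (Unitization ℂ A) d := by
  rw [map_mul, inN_apply, inN_apply, seqHom_inA, seqHom_inD]
  congr 2
  exact Unitization.starMap_inr _ a

theorem injective_span (n : ℕ) (a : Fin n → A) (d : Fin n → S.limitSub)
    (hd : LinearIndependent ℂ d)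
    (h : ∑ i, inN S A (a i) * S.inD (Unitization ℂ A) (d i) = 0) : a = 0 := by
  have h' := S.injective_span (Unitization ℂ A) n (fun i => (a i : Unitization ℂ A)) d hd h
  funext i
  exact Unitization.inr_injective ((congrFun h' i).trans (Unitization.inr_zero ℂ).symm)

end Assembly

end TensorNU

/-- T. -/
theorem tensorNUPin : TensorNUPin := fun S => by
  refine ⟨S.limitSub, inferInstance, S.toLimit, S.isLimit, fun A _ G _ α => ?_⟩
  have hc : ∀ a d, Commute (TensorNU.inN S A a) (S.inD (Unitization ℂ A) d) :=
    fun a d => S.in_commute (Unitization ℂ A) (a : Unitization ℂ A) d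
  exact ⟨_, inferInstance, TensorNU.copyA _ _ hc, TensorNU.copyD _ _ hc,
    TensorNU.act _ _ hc α (fun h => TensorNU.seqHom S (unitMap (α h)))
      (TensorNU.seqHom_prod S A α),
    TensorNU.isTensor _ _ hc (TensorNU.injective_span S A),
    fun h a d => TensorNU.act_elem _ _ hc α _ _ h a d⟩

end Vale.Agent.P095.Bridge
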