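import Vale.Agent.P095.Bridge.MultAct
import Vale.Agent.P095.Bridge.MultSeq
import Vale.Agent.P101.Bridge.SquareHom
import Vale.Agent.P101.Bridge.StageMap

/-!
P095 bridge, U: at one stage, the flip as a sequence of unitary multipliers that is almost central on
`A`, almost fixed by the action, and moves the stage into the copy of `A`.
-/

namespace Vale.Agent.P095.Bridge

open Filter Vale.Agent.P101 Vale.Agent.P101.Bridge Vale.Agent.P101.DropN
open scoped Topology BoundedContinuousFunction Matrix Matrix.Norms.L2Operator Kronecker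
  unitInterval MultiplierAlgebra

variable {A D B G : Type} [NonUnitalCStarAlgebra A] [CStarAlgebra D] [NonUnitalCStarAlgebra B]
  [Group G] {ιA : A →⋆ₙₐ[ℂ] B} {ιD : D →⋆ₐ[ℂ] 𝓜(ℂ, B)} {α : G →* (A ≃⋆ₐ[ℂ] A)}
  {β : G →* (B ≃⋆ₐ[ℂ] B)} {w : Ultrafilter ℕ}

/-- Central sequences of the unitization as sequences of multipliers. -/
noncomputable def pushU (ιA : A →⋆ₙₐ[ℂ] B) (w : Ultrafilter ℕ) :
    centralSeq (w : Filter ℕ) (Unitization ℂ A) →⋆ₐ[ℂ] relCentral (inM ιA) w where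
  toFun f := ⟨BoundedContinuousFunction.ofNormedAddCommGroupDiscrete
      (fun n => unitIn ιA ((f : ℕ →ᵇ Unitization ℂ A) n)) ‖(f : ℕ →ᵇ Unitization ℂ A)‖
      (fun n => (NonUnitalStarAlgHom.norm_apply_le (unitIn ιA) _).trans
        ((f : ℕ →ᵇ Unitization ℂ A).norm_coe_le_norm n)), fun a => by
      refine squeeze_zero_norm (fun n => ?_) (tendsto_zero_iff_norm_tendsto_zero.1 (f.2 a))
      show ‖unitIn ιA _ * inM ιA a - inM ιA a * unitIn ιA _‖ ≤ _
      rw [← unitIn_inr, ← map_mul, ← map_mul, ← map_sub]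
      exact NonUnitalStarAlgHom.norm_apply_le (unitIn ιA) _⟩
  map_one' := by ext n : 2; exact map_one (unitIn ιA)
  map_mul' f g := by ext n : 2; exact map_mul (unitIn ιA) _ _
  map_zero' := by ext n : 2; exact map_zero (unitIn ιA)
  map_add' f g := by ext n : 2; exact map_add (unitIn ιA) _ _
  commutes' r := by ext n : 2; exact AlgHomClass.commutes (unitIn ιA) r
  map_star' f := by ext n : 2; exact map_star (unitIn ιA) _

lemma relMk_pushU_eq_zero {f : centralSeq (w : Filter ℕ) (Unitization ℂ A)}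
    (hf : AnnNull (w : Filter ℕ) (f : ℕ →ᵇ Unitization ℂ A)) :
    relMk (inM ιA) w (pushU ιA w f) = 0 := by
  rw [relMk_eq_zero]
  intro a
  refine squeeze_zero_norm (fun n => ?_) (tendsto_zero_iff_norm_tendsto_zero.1 (hf a))
  show ‖unitIn ιA _ * inM ιA a‖ ≤ _
  rw [← unitIn_inr, ← map_mul]
  exact NonUnitalStarAlgHom.norm_apply_le (unitIn ιA) _

/-- Constant sequences from the second factor. -/
noncomputable def constD (hc : ∀ a d, Commute (DoubleCentralizer.coeHom (ιA a)) (ιD d))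
    (w : Ultrafilter ℕ) : D →⋆ₐ[ℂ] relCentral (inM ιA) w where
  toFun d := ⟨BoundedContinuousFunction.const ℕ (ιD d), fun a => by
    refine tendsto_const_nhds.congr fun n => ?_
    show (0 : 𝓜(ℂ, B)) = ιD d * inM ιA a - inM ιA a * ιD d
    rw [inM_apply, ← (hc a d).eq, sub_self]⟩
  map_one' := by ext n : 2; exact map_one ιD
  map_mul' f g := by ext n : 2; exact map_mul ιD _ _
  map_zero' := by ext n : 2; exact map_zero ιD
  map_add' f g := by ext n : 2; exact map_add ιD _ _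
  commutes' r := by ext n : 2; exact AlgHomClass.commutes ιD r
  map_star' f := by ext n : 2; exact map_star ιD _

/-- The action on sequences of multipliers. -/
noncomputable def seqAct (h : IsTensorAction ιA ιD α β) (w : Ultrafilter ℕ) (g : G) :
    relCentral (inM ιA) w →⋆ₐ[ℂ] relCentral (inM ιA) w where
  toFun f := ⟨BoundedContinuousFunction.ofNormedAddCommGroupDiscrete
      (fun n => multMap (β g) ((f : ℕ →ᵇ 𝓜(ℂ, B)) n)) ‖(f : ℕ →ᵇ 𝓜(ℂ, B))‖
      (fun n => (norm_multMap_le _ _).trans ((f : ℕ →ᵇ 𝓜(ℂ, B)).norm_coe_le_norm n)), fun a => by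
      refine squeeze_zero_norm (fun n => ?_)
        (tendsto_zero_iff_norm_tendsto_zero.1 (f.2 ((α g).symm a)))
      show ‖multMap (β g) _ * inM ιA a - inM ιA a * multMap (β g) _‖ ≤ _
      conv_lhs => rw [← (α g).apply_symm_apply a, ← multMap_inM h, ← map_mul, ← map_mul, ← map_sub]
      exact norm_multMap_le _ _⟩
  map_one' := by ext n : 2; exact map_one (multMap (β g))
  map_mul' f f' := by ext n : 2; exact map_mul (multMap (β g)) _ _
  map_zero' := by ext n : 2; exact map_zero (multMap (β g))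
  map_add' f f' := by ext n : 2; exact map_add (multMap (β g)) _ _
  commutes' r := by ext n : 2; exact AlgHomClass.commutes (multMap (β g)) r
  map_star' f := by ext n : 2; exact map_star (multMap (β g)) _

lemma exists_quotAct (h : IsTensorAction ιA ιD α β) (w : Ultrafilter ℕ) (g : G) :
    ∃ L : RelMod (inM ιA) w →⋆ₐ[ℂ] RelMod (inM ιA) w,
      ∀ f, L (relMk (inM ιA) w f) = relMk (inM ιA) w (seqAct h w g f) := by
  refine exists_descend (relMk (inM ιA) w) (relMk_surjective _ _)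
    ((relMk (inM ιA) w).comp (seqAct h w g)) fun f hf => ?_
  rw [StarAlgHom.comp_apply, relMk_eq_zero]
  rw [relMk_eq_zero] at hf
  intro a
  refine squeeze_zero_norm (fun n => ?_)
    (tendsto_zero_iff_norm_tendsto_zero.1 (hf ((α g).symm a)))
  show ‖multMap (β g) _ * inM ιA a‖ ≤ _
  conv_lhs => rw [← (α g).apply_symm_apply a, ← multMap_inM h, ← map_mul]
  exact norm_multMap_le _ _

/-- The fixed maps give a unital map of any prime dimension drop algebra. -/
lemma exists_fixedMap {p q : ℕ} (hq : 2 ≤ q) (hpq : Nat.Coprime p q)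
    (hfix : ∀ n, W.HasFixedDropN (w : Filter ℕ) (fun g => α g) n) :
    ∃ ψ : ZPair p q →⋆ₐ[ℂ] RelMod (inM ιA) w, ∀ x,
      ∃ f : centralSeq (w : Filter ℕ) (Unitization ℂ A),
        W.FixedModAnn (w : Filter ℕ) (fun g => α g) (f : ℕ →ᵇ Unitization ℂ A) ∧
          ψ x = relMk (inM ιA) w (pushU ιA w f) := by
  obtain ⟨a, b, hpos, hab⟩ := StageMap.exists_mul_succ hq hpq
  obtain ⟨n, hn⟩ : ∃ n, n + 1 = a * p := ⟨a * p - 1, by omega⟩
  obtain ⟨φ, hφ, hφfix⟩ := hfix n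
  have hz : ∀ {f g : centralSeq (w : Filter ℕ) (Unitization ℂ A)},
      AnnNull (w : Filter ℕ) ((f : ℕ →ᵇ Unitization ℂ A) - (g : ℕ →ᵇ Unitization ℂ A)) →
      relMk (inM ιA) w (pushU ιA w f) = relMk (inM ιA) w (pushU ιA w g) := fun {f g} hfg => by
    rw [← sub_eq_zero, ← map_sub, ← map_sub]
    exact relMk_pushU_eq_zero (f := f - g) hfg
  let ρ := (relMk (inM ιA) w).comp (pushU ιA w)
  let Ψ : ZPair (n + 1) (n + 2) →⋆ₐ[ℂ] RelMod (inM ιA) w :=
    { toFun := fun x => ρ (φ x)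
      map_one' := (hz (g := 1) (hφ.one _ fun _ => rfl)).trans (map_one ρ)
      map_mul' := fun x y => (hz (g := φ x * φ y) (hφ.mul x y _ fun _ => rfl)).trans (map_mul ρ _ _)
      map_zero' := by
        have h := (hz (g := φ 0 + φ 0) (hφ.add 0 0 0 fun _ => (add_zero _).symm)).trans
          (map_add ρ _ _)
        exact left_eq_add.1 h
      map_add' := fun x y => (hz (g := φ x + φ y) (hφ.add x y _ fun _ => rfl)).trans (map_add ρ _ _)
      commutes' := fun r => by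
        have h1 : relMk (inM ιA) w (pushU ιA w (φ (1 : ZPair (n + 1) (n + 2)))) = 1 :=
          (hz (g := 1) (hφ.one _ fun _ => rfl)).trans (map_one ρ)
        refine ((hz (g := r • φ (1 : ZPair (n + 1) (n + 2))) (hφ.smul r 1 _ fun _ => ?_)).trans
          (map_smul ρ _ _)).trans ?_
        · simp [Algebra.algebraMap_eq_smul_one]
        · show r • relMk (inM ιA) w (pushU ιA w (φ (1 : ZPair (n + 1) (n + 2)))) = _
          rw [h1, Algebra.algebraMap_eq_smul_one]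
      map_star' := fun x => (hz (g := star (φ x)) (hφ.star_map x _ fun _ => rfl)).trans
        (map_star ρ _) }
  have sc := StageMap.scale a b p q
  rw [show a * p = n + 1 from hn.symm, show b * q = n + 2 by omega] at sc
  exact ⟨Ψ.comp sc, fun x => ⟨φ (sc x), hφfix _, rfl⟩⟩

theorem isClosed_squareAlg (p q : ℕ) :
    IsClosed (Square.squareAlg p q : Set C(I × I, Fib2 p q)) := by
  have hc : ∀ (z : I × I) (M : Fib2 p q), IsClosed {f : C(I × I, Fib2 p q) | Commute (f z) M} :=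
    fun z M => isClosed_eq ((continuous_eval_const z).mul continuous_const)
      (continuous_const.mul (continuous_eval_const z))
  simp only [Square.squareAlg, StarSubalgebra.coe_mk, squareSet, Set.setOf_forall, Set.setOf_and]
  exact isClosed_iInter fun r => ((isClosed_iInter fun b => (hc _ _).inter (hc _ _)).inter
    (isClosed_iInter fun a => (hc _ _).inter (hc _ _)))

/-- A short-stepped path of unitaries from one lifts to unitaries. -/
theorem exists_path_lift {E F : Type} [CStarAlgebra E] [CStarAlgebra F] (π : E →⋆ₐ[ℂ] F)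
    (hπ : Function.Surjective π) (W : ℕ → F) (hW : ∀ i, W i ∈ unitary F) (h0 : W 0 = 1)
    (hs : ∀ i, ‖W (i + 1) - W i‖ ≤ 1) (i : ℕ) : ∃ u ∈ unitary E, π u = W i := by
  induction i with
  | zero => exact ⟨1, one_mem _, by rw [map_one, h0]⟩
  | succ i ih =>
    obtain ⟨u, hu, hui⟩ := ih
    have h1 : ‖W (i + 1) * star (W i) - 1‖ < 2 := by
      rw [← Unitary.mul_star_self_of_mem (hW i), ← sub_mul,
        CStarRing.norm_mul_mem_unitary _ (Unitary.star_mem (hW i))]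
      exact lt_of_le_of_lt (hs i) one_lt_two
    obtain ⟨u', hu', hu'W⟩ :=
      exists_unitary_lift π hπ (mul_mem (hW (i + 1)) (Unitary.star_mem (hW i))) h1
    exact ⟨u' * u, mul_mem hu' hu, by
      rw [map_mul, hu'W, hui, mul_assoc, Unitary.star_mul_self_of_mem (hW i), mul_one]⟩

/-- The terms of a unitary sequence. -/
lemma unitary_apply {U : relCentral (inM ιA) w} (hU : U ∈ unitary (relCentral (inM ιA) w)) (m : ℕ) :
    (U : ℕ →ᵇ 𝓜(ℂ, B)) m ∈ unitary 𝓜(ℂ, B) :=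
  Unitary.mem_iff.2
    ⟨congrArg (fun F : relCentral (inM ιA) w => (F : ℕ →ᵇ 𝓜(ℂ, B)) m)
      (Unitary.star_mul_self_of_mem hU),
     congrArg (fun F : relCentral (inM ιA) w => (F : ℕ →ᵇ 𝓜(ℂ, B)) m)
      (Unitary.mul_star_self_of_mem hU)⟩

/-- A unitary intertwining a central sequence and a constant moves the constant into `A`. -/
theorem eventually_flip_le (hc : ∀ a d, Commute (DoubleCentralizer.coeHom (ιA a)) (ιD d))
    {U : relCentral (inM ιA) w} (hU : U ∈ unitary (relCentral (inM ιA) w))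
    (f : centralSeq (w : Filter ℕ) (Unitization ℂ A)) (d : D) {r : ℝ}
    (hR : ‖relMk (inM ιA) w (constD hc w d * U - U * pushU ιA w f)‖ ≤ r) (a : A) {δ : ℝ}
    (hδ : 0 < δ) :
    ∀ᶠ m in (w : Filter ℕ), ∃ a' : A, ‖star ((U : ℕ →ᵇ 𝓜(ℂ, B)) m) * (ιD d * inM ιA a) *
      (U : ℕ →ᵇ 𝓜(ℂ, B)) m - inM ιA a'‖ ≤ r * ‖a‖ + δ := by
  have hr : 0 ≤ r := (norm_nonneg _).trans hR
  filter_upwards [eventually_mul_le (inM ιA) w hR a (half_pos hδ),
    Metric.tendsto_nhds.1 (U.2 a) (δ / (2 * (‖ιD d‖ + 1))) (by positivity)] with m h1 h2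
  refine ⟨((f : ℕ →ᵇ Unitization ℂ A) m * (a : Unitization ℂ A)).snd, ?_⟩
  set F := unitIn ιA ((f : ℕ →ᵇ Unitization ℂ A) m) with hF
  rw [← unitIn_inr ιA ((f : ℕ →ᵇ Unitization ℂ A) m * (a : Unitization ℂ A)).snd, ← mul_inr_eq, map_mul,
    unitIn_inr, ← hF]
  have hu := unitary_apply hU m
  set um := (U : ℕ →ᵇ 𝓜(ℂ, B)) m
  set dd := ιD d
  set P := inM ιA a
  rw [dist_zero_right] at h2
  have he : star um * (dd * P) * um - F * P =
      star um * dd * (P * um - um * P) + star um * ((dd * um - um * F) * P) := by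
    simp only [mul_sub, sub_mul, mul_assoc]
    rw [← mul_assoc (star um) um (F * P), Unitary.star_mul_self_of_mem hu, one_mul]
    abel
  have hP : ‖P‖ ≤ ‖a‖ := NonUnitalStarAlgHom.norm_apply_le _ _
  have h3 : ‖star um * dd * (P * um - um * P)‖ ≤ δ / 2 := by
    rw [mul_assoc, CStarRing.norm_mem_unitary_mul _ (Unitary.star_mem hu)]
    refine (norm_mul_le _ _).trans ?_
    rw [norm_sub_rev]
    refine (mul_le_mul_of_nonneg_left h2.le (norm_nonneg dd)).trans ?_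
    rw [mul_div_assoc', div_le_div_iff₀ (by positivity) (by norm_num)]
    nlinarith [norm_nonneg dd]
  have h4 : ‖star um * ((dd * um - um * F) * P)‖ ≤ r * ‖a‖ + δ / 2 := by
    rw [CStarRing.norm_mem_unitary_mul _ (Unitary.star_mem hu)]
    refine (h1 : ‖(dd * um - um * F) * P‖ ≤ r * ‖P‖ + δ / 2).trans ?_
    gcongr
  rw [he]
  linarith [norm_add_le (star um * dd * (P * um - um * P)) (star um * ((dd * um - um * F) * P))]

/-- A fixed class of unitaries is almost fixed strictly. -/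
theorem tendsto_fixed (hT : IsTensor ιA ιD) (hβ : IsTensorAction ιA ιD α β)
    {U : relCentral (inM ιA) w} {g : G}
    (hZ : relMk (inM ιA) w (U * star (seqAct hβ w g U) - 1) = 0) (h : B) :
    Tendsto (fun m => ((U : ℕ →ᵇ 𝓜(ℂ, B)) m).fst
      (β g ((star ((U : ℕ →ᵇ 𝓜(ℂ, B)) m)).fst ((β g).symm h))) - h) (w : Filter ℕ) (𝓝 0) := by
  set Z := U * star (seqAct hβ w g U) - 1
  rw [relMk_eq_zero] at hZ
  set z : ℕ → 𝓜(ℂ, B) := fun m => (Z : ℕ →ᵇ 𝓜(ℂ, B)) m
  have hzb : ∀ m, ‖z m‖ ≤ ‖(Z : ℕ →ᵇ 𝓜(ℂ, B))‖ := (Z : ℕ →ᵇ 𝓜(ℂ, B)).norm_coe_le_norm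
  have hspan : ∀ b ∈ Submodule.span ℂ (Set.range fun x : A × D => elem ιA ιD x.1 x.2),
      Tendsto (fun m => (z m).fst b) (w : Filter ℕ) (𝓝 0) := by
    intro b hb
    induction hb using Submodule.span_induction with
    | mem b hb =>
      obtain ⟨⟨a, d⟩, rfl⟩ := hb
      refine squeeze_zero_norm (fun m => ?_)
        (by simpa using (tendsto_zero_iff_norm_tendsto_zero.1 (hZ a)).mul_const ‖ιD d‖)
      rw [← norm_coeHom, ← mul_coeHom, coeHom_elem, inM_apply, ← (hT.comm a d).eq, ← mul_assoc]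
      exact norm_mul_le _ _
    | zero => simp
    | add b c _ _ hb hc => simpa [map_add] using hb.add hc
    | smul c b _ hb => simpa [map_smul] using hb.const_smul c
  have hall : ∀ b, Tendsto (fun m => (z m).fst b) (w : Filter ℕ) (𝓝 0) := by
    intro b
    rw [Metric.tendsto_nhds]
    intro ε hε
    obtain ⟨b', hb', hd⟩ := Metric.mem_closure_iff.1 (hT.dense b)
      (ε / (2 * (‖(Z : ℕ →ᵇ 𝓜(ℂ, B))‖ + 1))) (by positivity)
    filter_upwards [Metric.tendsto_nhds.1 (hspan b' hb') (ε / 2) (half_pos hε)] with m hm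
    rw [dist_zero_right] at hm ⊢
    rw [dist_eq_norm] at hd
    have h5 : ‖(z m).fst (b - b')‖ ≤ ‖(Z : ℕ →ᵇ 𝓜(ℂ, B))‖ *
        (ε / (2 * (‖(Z : ℕ →ᵇ 𝓜(ℂ, B))‖ + 1))) :=
      ((z m).fst.le_opNorm _).trans (mul_le_mul
        (by rw [DoubleCentralizer.norm_fst]; exact hzb m) hd.le (norm_nonneg _) (norm_nonneg _))
    have h6 : ‖(Z : ℕ →ᵇ 𝓜(ℂ, B))‖ * (ε / (2 * (‖(Z : ℕ →ᵇ 𝓜(ℂ, B))‖ + 1))) < ε / 2 := by
      rw [mul_div_assoc', div_lt_div_iff₀ (by positivity) (by norm_num)]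
      nlinarith [norm_nonneg (Z : ℕ →ᵇ 𝓜(ℂ, B))]
    have h7 : (z m).fst b = (z m).fst (b - b') + (z m).fst b' := by
      rw [← map_add, sub_add_cancel]
    rw [h7]
    exact lt_of_le_of_lt (norm_add_le _ _) (by linarith)
  refine (hall h).congr fun m => ?_
  show ((U : ℕ →ᵇ 𝓜(ℂ, B)) m * star (multMap (β g) ((U : ℕ →ᵇ 𝓜(ℂ, B)) m)) - 1).fst h = _
  rw [← map_star]
  rfl

variable {S : Chain} {ι : ∀ k, ZPair (S.p k) (S.q k) →⋆ₐ[ℂ] D}

/-- The flip in the quotient: unitary, intertwining the two maps, fixed by the action. -/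
theorem exists_flip_class {p q : ℕ} (hp : 0 < p) (hq : 0 < q) (hH : HalfFlipStepsPin)
    {Q : Type} [CStarAlgebra Q] (ψ₁ ψ₂ : ZPair p q →⋆ₐ[ℂ] Q)
    (hcomm : ∀ x y, Commute (ψ₁ x) (ψ₂ y))
    (Y : Finset (ZPair p q)) (U : C(I, Fib p q)) {η : ℝ} (hη : 0 < η)
    (hU : ∀ t, U t ∈ unitary (Fib p q)) (hU0 : U 0 = 1)
    (hY : ∀ y ∈ Y, ∀ s : I, ‖(y : C(I, Fib p q)) s
      - U s * (y : C(I, Fib p q)) 0 * star (U s)‖ ≤ η) :
    ∃ (N : ℕ) (W : ℕ → Q), (∀ i, W i ∈ unitary Q) ∧ W 0 = 1 ∧ (∀ i, ‖W (i + 1) - W i‖ ≤ 1) ∧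
      (∀ y ∈ Y, ‖ψ₂ y * W N - W N * ψ₁ y‖ ≤ 6 * η) ∧
      ∀ L : Q →⋆ₐ[ℂ] Q, (∀ x, L (ψ₁ x) = ψ₁ x ∧ L (ψ₂ x) = ψ₂ x) → L (W N) = W N := by
  obtain ⟨Θ, hΘ₁, hΘ₂, -, hΘfix, hΘnorm⟩ := Square.exists_squareHom hp hq hcomm
  obtain ⟨N, v, hv0, hv, hvY⟩ := hH _ _ Y U η hη hU hU0 hY
  let vv : ℕ → Square.squareAlg p q := fun i => ⟨v i, (hv i).1⟩
  refine ⟨N, fun i => Θ (vv i), fun i => ?_, ?_, fun i => ?_, fun y hy => ?_, fun L hL => ?_⟩
  · refine Unitary.map_mem Θ ?_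
    rw [Unitary.mem_iff]
    constructor <;> refine Subtype.ext (ContinuousMap.ext fun z => ?_)
    · exact Unitary.star_mul_self_of_mem ((hv i).2.1 z)
    · exact Unitary.mul_star_self_of_mem ((hv i).2.1 z)
  · show Θ (vv 0) = 1
    rw [show vv 0 = 1 from Subtype.ext hv0, map_one]
  · rw [← map_sub]
    refine (hΘnorm _).trans ?_
    exact (ContinuousMap.norm_le _ zero_le_one).2 fun z => (hv i).2.2 z
  · rw [← hΘ₂, ← hΘ₁, ← map_mul, ← map_mul, ← map_sub]
    refine (hΘnorm _).trans ((ContinuousMap.norm_le _ (by positivity)).2 fun z => ?_)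
    obtain ⟨s, t⟩ := z
    rw [← norm_neg]
    refine le_trans (le_of_eq ?_) (hvY y hy s t)
    congr 1
    exact neg_sub _ _
  · exact hΘfix L (Vale.Agent.P101.Bridge.continuous_starAlgHom L) hL _

/-- The flip at one stage as unitary multipliers. -/
theorem exists_mult_flip (hH : HalfFlipStepsPin)
    (hfix : ∀ n, W.HasFixedDropN (w : Filter ℕ) (fun g => α g) n)
    (hT : IsTensor ιA ιD) (hβ : IsTensorAction ιA ιD α β) (n : ℕ)
    (Y : Finset (ZPair (S.p n) (S.q n))) (U : C(I, Fib (S.p n) (S.q n))) {η : ℝ} (hη : 0 < η)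
    (hU : ∀ t, U t ∈ unitary (Fib (S.p n) (S.q n))) (hU0 : U 0 = 1)
    (hY : ∀ y ∈ Y, ∀ s : I, ‖(y : C(I, Fib (S.p n) (S.q n))) s
      - U s * (y : C(I, Fib (S.p n) (S.q n))) 0 * star (U s)‖ ≤ η) :
    ∃ u : ℕ → 𝓜(ℂ, B), (∀ m, u m ∈ unitary 𝓜(ℂ, B)) ∧
      (∀ a, Tendsto (fun m => u m * inM ιA a - inM ιA a * u m) (w : Filter ℕ) (𝓝 0)) ∧
      (∀ y ∈ Y, ∀ (a : A), ∀ δ > (0 : ℝ), ∀ᶠ m in (w : Filter ℕ), ∃ a' : A,
        ‖star (u m) * (ιD (ι n y) * inM ιA a) * u m - inM ιA a'‖ ≤ 6 * η * ‖a‖ + δ) ∧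
      ∀ g h, Tendsto (fun m => (u m).fst (β g ((star (u m)).fst ((β g).symm h))) - h)
        (w : Filter ℕ) (𝓝 0) := by
  obtain ⟨ψ₁, hψ₁⟩ := exists_fixedMap (ιA := ιA) (S.two_q n) (S.coprime n) hfix
  choose f hfixed hf using hψ₁
  let ψ₂ : ZPair (S.p n) (S.q n) →⋆ₐ[ℂ] RelMod (inM ιA) w :=
    (relMk (inM ιA) w).comp ((constD hT.comm w).comp (ι n))
  have hψ₂ : ∀ y, ψ₂ y = relMk (inM ιA) w (constD hT.comm w (ι n y)) := fun _ => rfl
  have hcomm : ∀ x y, Commute (ψ₁ x) (ψ₂ y) := fun x y => by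
    rw [hf, hψ₂]
    refine Commute.map ?_ (relMk (inM ιA) w)
    show _ * _ = _ * _
    ext m : 2
    exact (commute_unitIn hT.comm _ _).eq
  obtain ⟨N, T, hTu, hT0, hTs, hTY, hTfix⟩ := exists_flip_class
    (by linarith [S.two_p n]) (by linarith [S.two_q n]) hH ψ₁ ψ₂ hcomm Y U hη hU hU0 hY
  obtain ⟨U', hU', hU'T⟩ :=
    exists_path_lift (relMk (inM ιA) w) (relMk_surjective _ _) T hTu hT0 hTs N
  refine ⟨fun m => (U' : ℕ →ᵇ 𝓜(ℂ, B)) m, unitary_apply hU', U'.2,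
    fun y hy a δ hδ => eventually_flip_le hT.comm hU' (f y) (ι n y) ?_ a hδ,
    fun g h => tendsto_fixed hT hβ ?_ h⟩
  · rw [map_sub, map_mul, map_mul, ← hf, ← hψ₂, hU'T]
    exact hTY y hy
  · obtain ⟨L, hL⟩ := exists_quotAct hβ w g
    have hfix' : L (T N) = T N := by
      refine hTfix L fun x => ⟨?_, ?_⟩
      · rw [hf, hL, ← sub_eq_zero, ← map_sub, relMk_eq_zero]
        intro a
        refine squeeze_zero_norm (fun m => ?_)
          (tendsto_zero_iff_norm_tendsto_zero.1 (hfixed x g a))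
        show ‖(multMap (β g) (unitIn ιA _) - unitIn ιA _) * inM ιA a‖ ≤ _
        rw [multMap_unitIn hβ, ← map_sub, ← unitIn_inr, ← map_mul]
        exact NonUnitalStarAlgHom.norm_apply_le (unitIn ιA) _
      · rw [hψ₂, hL]
        congr 1
        ext m : 2
        exact multMap_ιD hT hβ g _
    rw [map_sub, map_mul, map_star, map_one, ← hL, hU'T, hfix',
      Unitary.mul_star_self_of_mem (hTu N), sub_self]

end Vale.Agent.P095.Bridge
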