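import Vale.Agent.P095.Bridge.UnitFlip

/-!
P095 bridge, block U: fixed maps of the dimension drop algebras give the unitaries of one step of the
equivariant intertwining.
-/

namespace Vale.Agent.P095.Bridge

open Filter Vale.Agent.P101 Vale.Agent.P101.Bridge Vale.Agent.P101.DropN
open scoped Topology BoundedContinuousFunction Matrix Matrix.Norms.L2Operator Kronecker
  unitInterval MultiplierAlgebra

variable {A D B : Type} [NonUnitalCStarAlgebra A] [CStarAlgebra D] [NonUnitalCStarAlgebra B]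
  {S : Chain} {ι : ∀ k, ZPair (S.p k) (S.q k) →⋆ₐ[ℂ] D}

/-- The algebraic tensors of one stage. -/
noncomputable def stageSpanNU (ιA : A →⋆ₙₐ[ℂ] B) (ιD : D →⋆ₐ[ℂ] 𝓜(ℂ, B)) (k : ℕ)
    (ι : ∀ k, ZPair (S.p k) (S.q k) →⋆ₐ[ℂ] D) : Submodule ℂ B :=
  Submodule.span ℂ (Set.range fun z : A × ZPair (S.p k) (S.q k) => elem ιA ιD z.1 (ι k z.2))

theorem stageSpanNU_mono (hlim : IsLimit S ι) (ιA : A →⋆ₙₐ[ℂ] B) (ιD : D →⋆ₐ[ℂ] 𝓜(ℂ, B)) :
    Monotone fun k => stageSpanNU ιA ιD k ι :=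
  monotone_nat_of_le_succ fun k => Submodule.span_mono <| by
    rintro _ ⟨⟨a, x⟩, rfl⟩
    exact ⟨⟨a, S.φ k x⟩, by simp only [hlim.compat]⟩

theorem continuous_elem (ιA : A →⋆ₙₐ[ℂ] B) (ιD : D →⋆ₐ[ℂ] 𝓜(ℂ, B)) (a : A) :
    Continuous fun d => elem ιA ιD a d := by
  have h : LipschitzWith ⟨‖ιA a‖, norm_nonneg _⟩ fun d => elem ιA ιD a d := by
    refine LipschitzWith.of_dist_le_mul fun d d' => ?_
    rw [dist_eq_norm, dist_eq_norm, elem, elem, ← ContinuousLinearMap.sub_apply,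
      ← DoubleCentralizer.sub_fst, ← map_sub, mul_comm]
    refine ((ιD (d - d')).fst.le_opNorm _).trans (mul_le_mul_of_nonneg_right ?_ (norm_nonneg _))
    rw [DoubleCentralizer.norm_fst]
    exact NonUnitalStarAlgHom.norm_apply_le ιD _
  exact h.continuous

theorem exists_near_stageNU (hlim : IsLimit S ι) {ιA : A →⋆ₙₐ[ℂ] B} {ιD : D →⋆ₐ[ℂ] 𝓜(ℂ, B)}
    (hT : IsTensor ιA ιD) (b : B) {η : ℝ} (hη : 0 < η) :
    ∃ k, ∃ b' ∈ stageSpanNU ιA ιD k ι, ‖b - b'‖ < η := by
  set N : Submodule ℂ B := (⨆ k, stageSpanNU ιA ιD k ι).topologicalClosure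
  have hN : IsClosed (N : Set B) := Submodule.isClosed_topologicalClosure _
  have hz : ∀ z : A × D, elem ιA ιD z.1 z.2 ∈ N := by
    rintro ⟨a, d⟩
    refine closure_minimal ?_ (hN.preimage (continuous_elem ιA ιD a)) (hlim.dense d)
    simp only [Set.iUnion_subset_iff]
    rintro k _ ⟨x, rfl⟩
    exact Submodule.le_topologicalClosure _
      (Submodule.mem_iSup_of_mem k (Submodule.subset_span ⟨(a, x), rfl⟩))
  have hb : b ∈ (N : Set B) := by
    refine closure_minimal (Submodule.span_le.2 ?_) hN (hT.dense b)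
    rintro _ ⟨z, rfl⟩; exact hz z
  obtain ⟨b', hb', hd⟩ := Metric.mem_closure_iff.1 hb η hη
  obtain ⟨k, hk⟩ := (Submodule.mem_iSup_of_directed _
    (stageSpanNU_mono hlim ιA ιD).directed_le).1 hb'
  exact ⟨k, b', hk, by rwa [← dist_eq_norm]⟩

/-- Block U. -/
theorem unitariesPin_of (hH : HalfFlipStepsPin) : UnitariesPin := by
  intro S hCR D _ ι hlim A _ _ w _ G _ _ α hfix B _ ιA ιD β hT hβ K F L H ε hε
  classical
  choose kb b' hb' hbb using fun b => exists_near_stageNU hlim hT b (half_pos hε)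
  set k := F.sup kb
  have hmem : ∀ b ∈ F, b' b ∈ stageSpanNU ιA ιD k ι := fun b hb =>
    stageSpanNU_mono hlim ιA ιD (Finset.le_sup hb) (hb' b)
  choose! c hc using fun b hb => Finsupp.mem_span_range_iff_exists_finsupp.1 (hmem b hb)
  let Z : Finset (A × ZPair (S.p k) (S.q k)) := F.biUnion fun b => (c b).support
  set W : ℝ := 1 + ∑ b ∈ F, ∑ z ∈ (c b).support, ‖c b z‖ * (‖z.1‖ + 1)
  have hW0 : 0 ≤ ∑ b ∈ F, ∑ z ∈ (c b).support, ‖c b z‖ * (‖z.1‖ + 1) :=
    Finset.sum_nonneg fun b _ => Finset.sum_nonneg fun z _ => by positivity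
  have hWp : (0 : ℝ) < W := by linarith
  set η : ℝ := ε / (14 * W) with hη
  have hη0 : 0 < η := by positivity
  obtain ⟨j, U, hU, hU0, hUX⟩ := exists_stage (fun k j => (hCR k j).1) k (Z.image Prod.snd) hη0
  obtain ⟨u, hu, huA, huY, huG⟩ := exists_mult_flip (ι := ι) hH hfix hT hβ (k + j)
    ((Z.image Prod.snd).image (S.comp k j)) U hη0 hU hU0
    (by simp only [Finset.mem_image]; rintro _ ⟨x, hx, rfl⟩ s; exact hUX x (Finset.mem_image.2 hx) s)
  have e1 : ∀ᶠ m in (w : Filter ℕ), ∀ a ∈ K, ‖u m * inM ιA a - inM ιA a * u m‖ ≤ ε := by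
    refine (eventually_all_finset K).2 fun a _ => ?_
    filter_upwards [Metric.tendsto_nhds.1 (huA a) ε hε] with m hm
    rw [dist_zero_right] at hm
    exact hm.le
  have e2 : ∀ᶠ m in (w : Filter ℕ), ∀ g ∈ L, ∀ h ∈ H,
      ‖(u m).fst (β g ((star (u m)).fst ((β g).symm h))) - h‖ ≤ ε := by
    refine (eventually_all_finset L).2 fun g _ => (eventually_all_finset H).2 fun h _ => ?_
    filter_upwards [Metric.tendsto_nhds.1 (huG g h) ε hε] with m hm
    rw [dist_zero_right] at hm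
    exact hm.le
  have e3 : ∀ᶠ m in (w : Filter ℕ), ∀ z ∈ Z, ∃ a' : A,
      ‖star (u m) * (ιD (ι k z.2) * inM ιA z.1) * u m - inM ιA a'‖ ≤ 6 * η * ‖z.1‖ + η := by
    refine (eventually_all_finset Z).2 fun z hz => ?_
    have h := huY _ (Finset.mem_image_of_mem _ (Finset.mem_image_of_mem _ hz)) z.1 η hη0
    simpa only [limit_comp hlim] using h
  obtain ⟨m, ⟨h1, h2⟩, h3⟩ := ((e1.and e2).and e3).exists
  refine ⟨u m, hu m, h1, fun b hb => ?_, h2⟩
  choose! a ha using h3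
  refine ⟨∑ z ∈ (c b).support, c b z • a z, ?_⟩
  set J : B →⋆ₙₐ[ℂ] 𝓜(ℂ, B) := DoubleCentralizer.coeHom
  have hJu : J ((star (u m)).fst ((u m).snd b)) = star (u m) * J b * u m := by
    rw [mul_assoc, coeHom_mul, mul_coeHom]
  rw [← norm_coeHom, map_sub, show DoubleCentralizer.coeHom _ = _ from hJu]
  show ‖star (u m) * J b * u m - inM ιA (∑ z ∈ (c b).support, c b z • a z)‖ ≤ ε
  have hsum : star (u m) * J (b' b) * u m - inM ιA (∑ z ∈ (c b).support, c b z • a z) =
      ∑ z ∈ (c b).support,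
        c b z • (star (u m) * (ιD (ι k z.2) * inM ιA z.1) * u m - inM ιA (a z)) := by
    have hcb : ∑ z ∈ (c b).support, c b z • elem ιA ιD z.1 (ι k z.2) = b' b := hc b hb
    rw [← hcb, map_sum, map_sum, Finset.mul_sum, Finset.sum_mul, ← Finset.sum_sub_distrib]
    refine Finset.sum_congr rfl fun z _ => ?_
    rw [map_smul, map_smul, mul_smul_comm, smul_mul_assoc, smul_sub]
    congr 3
    rw [show J (elem ιA ιD z.1 (ι k z.2)) = _ from coeHom_elem z.1 (ι k z.2)]
  have hle : ‖star (u m) * J (b' b) * u m - inM ιA (∑ z ∈ (c b).support, c b z • a z)‖ ≤ ε / 2 := by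
    rw [hsum]
    refine (norm_sum_le _ _).trans ?_
    calc ∑ z ∈ (c b).support,
          ‖c b z • (star (u m) * (ιD (ι k z.2) * inM ιA z.1) * u m - inM ιA (a z))‖
        ≤ ∑ z ∈ (c b).support, 7 * η * (‖c b z‖ * (‖z.1‖ + 1)) :=
          Finset.sum_le_sum fun z hz => by
            rw [norm_smul]
            refine (mul_le_mul_of_nonneg_left (ha z (Finset.mem_biUnion.2 ⟨b, hb, hz⟩))
              (norm_nonneg _)).trans ?_
            rw [show 7 * η * (‖c b z‖ * (‖z.1‖ + 1)) = ‖c b z‖ * (7 * η * (‖z.1‖ + 1)) by ring]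
            refine mul_le_mul_of_nonneg_left ?_ (norm_nonneg _)
            nlinarith [norm_nonneg z.1]
      _ = 7 * η * ∑ z ∈ (c b).support, ‖c b z‖ * (‖z.1‖ + 1) := by rw [Finset.mul_sum]
      _ ≤ 7 * η * W := by
        refine mul_le_mul_of_nonneg_left ?_ (by positivity)
        have := Finset.single_le_sum (f := fun b => ∑ z ∈ (c b).support, ‖c b z‖ * (‖z.1‖ + 1))
          (fun b _ => Finset.sum_nonneg fun z _ => by positivity) hb
        linarith
      _ = ε / 2 := by rw [hη]; field_simp; ring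
  have hd : ‖star (u m) * J b * u m - star (u m) * J (b' b) * u m‖ < ε / 2 := by
    rw [← sub_mul, ← mul_sub, ← map_sub, CStarRing.norm_mul_mem_unitary _ (hu m),
      CStarRing.norm_mem_unitary_mul _ (Unitary.star_mem (hu m))]
    rw [show ‖J (b - b' b)‖ = _ from norm_coeHom _]
    exact hbb b
  linarith [norm_sub_le_norm_sub_add_norm_sub (star (u m) * J b * u m)
    (star (u m) * J (b' b) * u m) (inM ιA (∑ z ∈ (c b).support, c b z • a z))]

end Vale.Agent.P095.Bridge
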